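import Vale.Agent.P216.D773.Fill
import Vale.Agent.P216.LS.Milnor

/-!
# P216-D, block [RAT] : the contractions of small balls along unique segments
-/

open Set

namespace Vale.Agent.P216.D773

open Vale.Agent.P216.LS

/-- Contraction of the balls of radius `r < ρ` along the unique segments. -/
noncomputable def ctrU {M : Type} [MetricSpace M] [CompactSpace M] {ρ r : ℝ} (h : UniqSeg M ρ)
    (hr : r < ρ) : Ctr M r where
  H c x t := seg x c t
  zero c x _ := seg_zero x c
  one c x _ := seg_one x c
  le c x t hx ht := by
    have hxc : dist x c < ρ := by rw [dist_comm]; exact hx.trans_lt hr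
    rw [dist_comm c (seg x c t), dist_seg_right h hxc ht, dist_comm c x]
    nlinarith [dist_nonneg (x := x) (y := c), ht.1]
  uc ε hε := by
    obtain ⟨δ, hδ, H⟩ := unifCont_seg h hr (ε := ε / 2) (by positivity)
    refine ⟨δ, hδ, fun c x x' t t' hx hx' hd ht ht' htt => ?_⟩
    have := H x x' c c t t' (by rwa [dist_comm]) (by rwa [dist_comm]) ht ht' hd.le
      (by rw [dist_self]; exact hδ.le) htt.le
    linarith

end Vale.Agent.P216.D773
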