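import Vale.Agent.P216.D773.Main
import Vale.Agent.P216.D773.CtrU
import Vale.Agent.P216.D246.Dim
import Vale.Agent.P216.H934D.Bridge

/-!
# P216-D, block [D-RAT] : `H^*(M; ℚ) = ℚ[x] / (x ^ (h + 1))` implies
`H^*(M; k) = k[x] / (x ^ (h + 1))` for all fields `k` in which a fixed `N ≠ 0`
-/

open Set

namespace Vale.Agent.P216.D773

open Vale.Agent.P216.ASCoh

variable {M : Type} [MetricSpace M] [CompactSpace M] {d h : ℕ}

/-- Vanishing above the dimension, for cochains on tuples. -/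
theorem isCobd_above (E : Type) [NormedAddCommGroup E] [NormedSpace ℝ E] [FiniteDimensional ℝ E]
    [ChartedSpace E M] (hE : 1 ≤ Module.finrank ℝ E) {k : Type} [Field k] (h2 : (2 : k) ≠ 0)
    {q : ℕ} (hq : Module.finrank ℝ E < q) {f : Cochain M k q} (hf : IsCocycle f) : IsCobd f :=
  (H934D.isCobd_iff f).2 (D246.exL_above_mfd (E := E) h2 rfl hE hq ((H934D.isCocycle_iff f).1 hf))

/-- **[D-RAT]** -/
theorem rat (E : Type) [NormedAddCommGroup E] [NormedSpace ℝ E] [FiniteDimensional ℝ E]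
    [ChartedSpace E M] [ConnectedSpace M] (hE : 1 ≤ Module.finrank ℝ E) {ρ : ℝ} (hρ : 0 < ρ)
    (hU : LS.UniqSeg M ρ) (hd : 1 ≤ d) (hQ : Monogenic M ℚ d h) :
    ∃ N : ℕ, N ≠ 0 ∧ ∀ (k : Type) [Field k], (N : k) ≠ 0 → Monogenic M k d h := by
  obtain ⟨N, hN, H⟩ := rat_main (half_pos hρ) (ctrU hU (half_lt_self hρ)) hd hQ
    (Module.finrank ℝ E)
  refine ⟨2 * N, mul_ne_zero two_ne_zero hN, fun k _ hk => ?_⟩
  rw [Nat.cast_mul, Nat.cast_ofNat] at hk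
  exact H k (right_ne_zero_of_mul hk) fun q hq f hf =>
    isCobd_above E hE (left_ne_zero_of_mul hk) hq hf

/-- **[D-RAT]**, list form. -/
theorem rat_baseK (E : Type) [NormedAddCommGroup E] [NormedSpace ℝ E] [FiniteDimensional ℝ E]
    [ChartedSpace E M] [ConnectedSpace M] (hE : 1 ≤ Module.finrank ℝ E) {ρ : ℝ} (hρ : 0 < ρ)
    (hU : LS.UniqSeg M ρ) (hd : 1 ≤ d) (hQ : Monogenic M ℚ d h) :
    ∃ N : ℕ, N ≠ 0 ∧ ∀ (k : Type) [Field k], (N : k) ≠ 0 → Nonempty (H934D.BaseK k M d h) := by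
  obtain ⟨N, hN, H⟩ := rat E hE hρ hU hd hQ
  exact ⟨N, hN, fun k _ hk => H934D.baseK_of_monogenic hd (H k hk)⟩

/-- For all large primes `p`. -/
theorem rat_prime (E : Type) [NormedAddCommGroup E] [NormedSpace ℝ E] [FiniteDimensional ℝ E]
    [ChartedSpace E M] [ConnectedSpace M] (hE : 1 ≤ Module.finrank ℝ E) {ρ : ℝ} (hρ : 0 < ρ)
    (hU : LS.UniqSeg M ρ) (hd : 1 ≤ d) (hQ : Monogenic M ℚ d h) :
    ∃ N : ℕ, ∀ p : ℕ, N < p → ∀ [Fact p.Prime], Monogenic M (ZMod p) d h ∧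
      Nonempty (H934D.BaseK (ZMod p) M d h) := by
  obtain ⟨N, hN, H⟩ := rat E hE hρ hU hd hQ
  refine ⟨N, fun p hp hpp => ?_⟩
  have h1 : ((N : ℕ) : ZMod p) ≠ 0 := fun h0 => by
    rw [ZMod.natCast_eq_zero_iff] at h0
    exact absurd (Nat.le_of_dvd (Nat.pos_of_ne_zero hN) h0) (not_le.2 hp)
  exact ⟨H (ZMod p) h1, H934D.baseK_of_monogenic hd (H (ZMod p) h1)⟩

end Vale.Agent.P216.D773
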