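import Vale.Agent.P216.E2L.Fib
import Vale.Agent.P216.H934D.Bridge

/-!
# P216-D: the base of the Leray zigzag (`E2L.BaseH`) from the cohomology ring of `M`
-/

open Set

namespace Vale.Agent.P216.D773

open Vale.Agent.P216.H934D Vale.Agent.P216.Sl

variable {k M : Type} [Field k] [MetricSpace M] {d h : ℕ}

theorem rkA_of_baseK (B : BaseK k M d h) {p : ℕ} (hp : ∃ j ≤ h, p = d * j) :
    E2L.RkA k (univ : Set M) p := by
  obtain ⟨j, hj, rfl⟩ := hp
  intro c c' _ hc _ hc'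
  obtain ⟨a, ha⟩ := B.line j hj c hc
  obtain ⟨a', ha'⟩ := B.line j hj c' hc'
  by_cases h0 : a = 0
  · subst h0
    refine ⟨1, 0, fun h => one_ne_zero h.1, exL_congr ha fun l _ => ?_⟩
    ring
  · refine ⟨a', -a, fun h => h0 (neg_eq_zero.1 h.2), exL_congr (exL_add (exL_smul a' ha)
      (exL_smul (-a) ha')) fun l _ => ?_⟩
    ring

/-- **`BaseH`** from `BaseK`. -/
theorem baseH_of_baseK (B : BaseK k M d h) :
    E2L.BaseH k (univ : Set M) fun p => ∃ j ≤ h, p = d * j :=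
  ⟨fun p hp c _ hc => B.zero p (fun j hj e => hp ⟨j, hj, e⟩) c hc, fun _ hp => rkA_of_baseK B hp⟩

end Vale.Agent.P216.D773
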