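import Vale.Agent.P216.D773.Trans
import Vale.Agent.P216.H754.NormAS
import Vale.Agent.P216.H215.Monogenic

/-!
# P216-D, block [RAT] : cochains on tuples and functions on lists

On a compact metric space, `IsCocycle` and `IsCobd` of `ASCoh` (germs at the diagonal) are
`CocL`, `ExL` (functions on lists of small diameter).
-/

open Finsupp Set Matrix Topology

namespace Vale.Agent.P216.D773

open Vale.Agent.P216 (Sl.dl Sl.toL Sl.ofL)
open Vale.Agent.P216.ASCoh

section Alg

variable {E k : Type} [Field k]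

theorem sum_eq_d {n : ℕ} (f : (Fin n → E) → k) (σ : Fin (n + 1) → E) :
    ∑ i : Fin (n + 1), (-1) ^ (i : ℕ) * f (fun j => σ (i.succAbove j)) = P265.AS.d f σ := by
  induction n with
  | zero =>
    rw [Fin.sum_univ_one, P265.AS.d_zero_apply]
    simp only [Fin.coe_ofNat_eq_mod, Nat.zero_mod, pow_zero, one_mul]
    congr 1
  | succ n ih =>
    obtain ⟨a, x, rfl⟩ : ∃ a x, σ = vecCons a x := ⟨vecHead σ, vecTail σ, (cons_head_tail σ).symm⟩
    rw [Fin.sum_univ_succ, P265.AS.d_cons, ← ih]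
    have e1 : (fun j => (vecCons a x : Fin (n + 2) → E) (Fin.succAbove 0 j)) = x := by
      funext j
      rw [Fin.succAbove_zero]
      rfl
    rw [e1, Fin.val_zero, pow_zero, one_mul, sub_eq_add_neg, ← Finset.sum_neg_distrib]
    congr 1
    refine Finset.sum_congr rfl fun i _ => ?_
    have e2 : (fun j => (vecCons a x : Fin (n + 2) → E) (i.succ.succAbove j)) =
        vecCons a fun j => x (i.succAbove j) := by
      funext j
      refine Fin.cases ?_ (fun j => ?_) j
      · rw [Fin.succ_succAbove_zero]; rfl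
      · rw [Fin.succ_succAbove_succ]; rfl
    rw [e2, Fin.val_succ, pow_succ]
    ring

end Alg

variable {M : Type} [MetricSpace M] {k : Type} [Field k]

omit [MetricSpace M] in
theorem toL_cobd {q : ℕ} (f : Cochain M k q) (l : List M) :
    Sl.toL (cobd f) l = Sl.dl (Sl.toL f) l := by
  rw [← Sl.toL_d]
  congr 1
  funext σ
  exact sum_eq_d f σ

theorem locZero_of {q : ℕ} {f : Cochain M k q} {ε : ℝ} (hε : 0 < ε)
    (h : ∀ l : List M, l.length = q + 1 → Sml ε l → Sl.toL f l = 0) : LocZero f := by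
  intro x
  refine ⟨Metric.ball x (ε / 2), Metric.ball_mem_nhds x (by positivity), fun σ hσ => ?_⟩
  rw [← Sl.toL_ofFn f σ]
  refine h _ List.length_ofFn fun y hy z hz => ?_
  obtain ⟨i, rfl⟩ := (List.mem_ofFn' σ y).1 hy
  obtain ⟨j, rfl⟩ := (List.mem_ofFn' σ z).1 hz
  have h1 := Metric.mem_ball.1 (hσ i)
  have h2 := Metric.mem_ball.1 (hσ j)
  have h3 := dist_triangle_right (σ i) (σ j) x
  linarith

theorem LocZero.exists [CompactSpace M] {q : ℕ} {f : Cochain M k q} (h : LocZero f) :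
    ∃ ε > 0, ∀ l : List M, l.length = q + 1 → Sml ε l → Sl.toL f l = 0 := by
  choose U hU hz using h
  obtain ⟨δ, hδ, H⟩ := lebesgue_number_lemma_of_metric (isCompact_univ : IsCompact (univ : Set M))
    (c := fun x => interior (U x)) (fun _ => isOpen_interior)
    (fun x _ => mem_iUnion.2 ⟨x, mem_interior_iff_mem_nhds.2 (hU x)⟩)
  refine ⟨δ, hδ, fun l hl hs => ?_⟩
  obtain ⟨σ, rfl⟩ := Sl.exists_ofFn hl
  rw [Sl.toL_ofFn]
  obtain ⟨x, hx⟩ := H (σ 0) (mem_univ _)
  refine hz x σ fun i => interior_subset (hx ?_)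
  exact Metric.mem_ball.2 (hs _ ((List.mem_ofFn' σ _).2 ⟨i, rfl⟩) _
    ((List.mem_ofFn' σ _).2 ⟨0, rfl⟩))

theorem isCocycle_iff [CompactSpace M] {q : ℕ} {f : Cochain M k q} :
    IsCocycle f ↔ CocL (q + 1) (Sl.toL f) := by
  constructor
  · intro h
    obtain ⟨ε, hε, H⟩ := LocZero.exists h
    exact ⟨ε, hε, fun l hl hs => by rw [← toL_cobd, H l hl hs]⟩
  · rintro ⟨ε, hε, H⟩
    exact locZero_of hε fun l hl hs => by rw [toL_cobd, H l hl hs]

omit [MetricSpace M] in
/-- `dl` only depends on the lists one shorter. -/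
theorem dl_toL_ofL (m : ℕ) (g : List M → k) {l : List M} (hl : l.length = m + 1) :
    Sl.dl (Sl.toL (Sl.ofL m g)) l = Sl.dl g l :=
  dl_congr fun _ h _ => Sl.toL_ofL g (by omega)

theorem isCobd_iff [CompactSpace M] {q : ℕ} (hq : 1 ≤ q) {f : Cochain M k q} :
    IsCobd f ↔ ExL (q + 1) (Sl.toL f) := by
  obtain ⟨q, rfl⟩ : ∃ q', q = q' + 1 := ⟨q - 1, by omega⟩
  constructor
  · rintro ⟨g, hg⟩
    obtain ⟨ε, hε, H⟩ := LocZero.exists hg
    refine ⟨ε, hε, Sl.toL g, fun l hl hs => ?_⟩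
    have h1 := H l hl hs
    rw [Sl.toL_sub, toL_cobd, sub_eq_zero] at h1
    exact h1
  · rintro ⟨ε, hε, g, H⟩
    refine ⟨Sl.ofL (q + 1) g, locZero_of hε fun l hl hs => ?_⟩
    have h1 := toL_cobd (M := M) (q := q) (Sl.ofL (q + 1) g) l
    have h2 := dl_toL_ofL (q + 1) g hl
    rw [Sl.toL_sub, h1, h2, H l hl hs, sub_self]

/-- Functions which agree on the lists of length `m`. -/
theorem CocL.congr {m : ℕ} {f g : List M → k} (hf : CocL m f)
    {ε : ℝ} (hε : 0 < ε) (h : ∀ l : List M, l.length = m → Sml ε l → f l = g l) : CocL m g := by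
  obtain ⟨ε', hε', H⟩ := hf
  refine ⟨min ε ε', lt_min hε hε', fun l hl hs => ?_⟩
  rw [← H l hl (hs.mono (min_le_right _ _))]
  exact dl_congr fun l' h1 h2 => (h l' (by omega) fun x hx y hy =>
    (hs.mono (min_le_left ε ε')) x (h2.subset hx) y (h2.subset hy)).symm

omit [MetricSpace M] in
theorem toL_cup {p q : ℕ} (f : Cochain M k p) (g : Cochain M k q) {l : List M}
    (hl : l.length = p + q + 1) :
    Sl.toL (cup f g) l = Sl.toL f (l.take (p + 1)) * Sl.toL g (l.drop p) := by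
  obtain ⟨σ, rfl⟩ := Sl.exists_ofFn hl
  have e1 : (List.ofFn σ).take (p + 1) =
      List.ofFn (fun i : Fin (p + 1) => σ ⟨i, by omega⟩) := by
    apply List.ext_getElem
    · simp
    · intro i h1 h2
      rw [List.getElem_take, List.getElem_ofFn, List.getElem_ofFn]
  have e2 : (List.ofFn σ).drop p = List.ofFn (fun i : Fin (q + 1) => σ ⟨p + i, by omega⟩) := by
    apply List.ext_getElem
    · simp; omega
    · intro i h1 h2
      rw [List.getElem_drop, List.getElem_ofFn, List.getElem_ofFn]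
  rw [e1, e2]
  simp only [Sl.toL_ofFn]
  rfl

end Vale.Agent.P216.D773
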