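import Vale.Agent.P216.H787.Edges

/-!
# P216-D, block [RAT] : integral chains of lists

The integral version of the chains of `H787/Slant`, the prism operator, and the comparison with the
chains over a field.
-/

open Finsupp

namespace Vale.Agent.P216.D773

open Vale.Agent.P216 (Sl.Ch Sl.ev Sl.dl)

variable {k : Type} [Field k] {α β γ : Type}

/-- Finite integral chains of lists. -/
abbrev Cz (α : Type) := List α →₀ ℤ

theorem lin_ext {V : Type} [AddCommGroup V] {f g : Cz α →+ V}
    (h : ∀ l, f (single l 1) = g (single l 1)) : f = g :=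
  Finsupp.addHom_ext' fun l => AddMonoidHom.ext_int (h l)

theorem lin_ext_apply {V : Type} [AddCommGroup V] {f g : Cz α →+ V}
    (h : ∀ l, f (single l 1) = g (single l 1)) (c : Cz α) : f c = g c := by
  rw [lin_ext h]

/-- Linear extension. -/
noncomputable def ext {V : Type} [AddCommGroup V] (D : List α → V) : Cz α →+ V :=
  Finsupp.liftAddHom fun l => (zmultiplesHom V) (D l)

@[simp] theorem ext_single {V : Type} [AddCommGroup V] (D : List α → V)
    (l : List α) (r : ℤ) : ext D (single l r) = r • D l := by
  rw [ext, Finsupp.liftAddHom_apply_single]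
  rfl

/-- Prepend an entry. -/
noncomputable def cn (x : α) : Cz α →+ Cz α := ext fun l => single (x :: l) 1

/-- Apply a map to all entries. -/
noncomputable def mp (f : α → β) : Cz α →+ Cz β := ext fun l => single (l.map f) 1

@[simp] theorem cn_single (x : α) (l : List α) (r : ℤ) :
    cn x (single l r) = single (x :: l) r := by
  rw [cn, ext_single, Finsupp.smul_single]
  simp

@[simp] theorem mp_single (f : α → β) (l : List α) (r : ℤ) :
    mp f (single l r) = single (l.map f) r := by
  rw [mp, ext_single, Finsupp.smul_single]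
  simp

/-- The boundary of a list. -/
noncomputable def bdl : List α → Cz α
  | [] => 0
  | x :: l => single l 1 - cn x (bdl l)

/-- The boundary. -/
noncomputable def bd : Cz α →+ Cz α := ext bdl

@[simp] theorem bd_single (l : List α) (r : ℤ) : bd (single l r) = r • bdl l := by
  simp [bd]

theorem bdl_nil : bdl ([] : List α) = 0 := rfl

theorem bdl_cons (x : α) (l : List α) : bdl (x :: l) = single l 1 - cn x (bdl l) := rfl

@[simp] theorem bd_cn (x : α) (c : Cz α) : bd (cn x c) = c - cn x (bd c) := by
  have := lin_ext_apply (f := bd.comp (cn x))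
    (g := (AddMonoidHom.id _ - (cn x).comp bd : Cz α →+ Cz α)) (fun l => by
      simp only [AddMonoidHom.comp_apply, AddMonoidHom.sub_apply, AddMonoidHom.id_apply, cn_single,
        bd_single, one_smul, bdl_cons]) c
  simpa using this

theorem bd_bdl (l : List α) : bd (bdl l) = 0 := by
  induction l with
  | nil => rw [bdl_nil, map_zero]
  | cons x l ih => rw [bdl_cons, map_sub, bd_cn, bd_single, one_smul, ih, map_zero]; abel

theorem bd_bd (c : Cz α) : bd (bd c) = 0 := by
  have := lin_ext_apply (f := bd.comp bd) (g := (0 : Cz α →+ Cz α)) (fun l => by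
    rw [AddMonoidHom.comp_apply, bd_single, one_smul, bd_bdl, AddMonoidHom.zero_apply]) c
  simpa using this

theorem mp_cn (f : α → β) (x : α) (c : Cz α) : mp f (cn x c) = cn (f x) (mp f c) := by
  have := lin_ext_apply (f := (mp f).comp (cn x)) (g := (cn (f x)).comp (mp f))
    (fun l => by simp) c
  simpa using this

theorem bdl_map (f : α → β) (l : List α) : bdl (l.map f) = mp f (bdl l) := by
  induction l with
  | nil => rw [List.map_nil, bdl_nil, bdl_nil, map_zero]
  | cons x l ih => rw [List.map_cons, bdl_cons, bdl_cons, map_sub, mp_cn, ih, mp_single]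

theorem bd_mp (f : α → β) (c : Cz α) : bd (mp f c) = mp f (bd c) := by
  have := lin_ext_apply (f := bd.comp (mp f)) (g := (mp f).comp bd)
    (fun l => by
      rw [AddMonoidHom.comp_apply, AddMonoidHom.comp_apply, mp_single, bd_single, bd_single, one_smul,
        one_smul, bdl_map]) c
  simpa using this

/-- Chains supported on lists satisfying `P`. -/
def Sz (P : List α → Prop) : AddSubgroup (Cz α) where
  carrier := {c | ∀ l, c l ≠ 0 → P l}
  zero_mem' := fun l h => absurd rfl h
  add_mem' := fun {a b} ha hb l h => by
    by_cases h1 : a l = 0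
    · refine hb l fun h2 => h ?_
      rw [Finsupp.add_apply, h1, h2, add_zero]
    · exact ha l h1
  neg_mem' := fun {a} ha l h => ha l fun h2 => h (by rw [Finsupp.neg_apply, h2, neg_zero])

theorem mem_Sz {P : List α → Prop} {c : Cz α} : c ∈ Sz P ↔ ∀ l, c l ≠ 0 → P l := Iff.rfl

theorem single_mem {P : List α → Prop} {l : List α} (h : P l) (r : ℤ) : single l r ∈ Sz P :=
  fun l' hl' => by
    by_cases e : l = l'
    · exact e ▸ h
    · exact absurd (Finsupp.single_eq_of_ne (Ne.symm e)) hl'

theorem map_mem {V : Type} [AddCommGroup V] {N : AddSubgroup V}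
    {P : List α → Prop} (F : Cz α →+ V) (h : ∀ l, P l → F (single l 1) ∈ N) {c : Cz α}
    (hc : c ∈ Sz P) : F c ∈ N := by
  rw [← Finsupp.sum_single c, Finsupp.sum, map_sum]
  refine AddSubgroup.sum_mem _ fun l hl => ?_
  have e : (single l (c l) : Cz α) = (c l) • single l 1 := by
    rw [Finsupp.smul_single]; simp
  rw [e, map_zsmul]
  exact AddSubgroup.zsmul_mem _ (h l (hc l (Finsupp.mem_support_iff.1 hl))) _

theorem eq_of_mem {V : Type} [AddCommGroup V] {P : List α → Prop}
    {F G : Cz α →+ V} (h : ∀ l, P l → F (single l 1) = G (single l 1))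
    {c : Cz α} (hc : c ∈ Sz P) : F c = G c := by
  have := map_mem (N := ⊥) (F - G) (fun l hl => by simp [h l hl]) hc
  simpa [sub_eq_zero] using this

theorem Sz_mono {P Q : List α → Prop} (h : ∀ l, P l → Q l) : Sz P ≤ Sz Q :=
  fun _ hc l hl => h l (hc l hl)

/-- The faces of a list. -/
theorem bdl_mem (l : List α) : bdl l ∈ Sz fun l' => l'.length + 1 = l.length ∧ l'.Sublist l := by
  induction l with
  | nil => exact AddSubgroup.zero_mem _
  | cons x l ih =>
    rw [bdl_cons]
    refine AddSubgroup.sub_mem _ (single_mem
      (P := fun l' => l'.length + 1 = (x :: l).length ∧ l'.Sublist (x :: l))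
      ⟨by simp, List.sublist_cons_self x l⟩ _) ?_
    exact map_mem _ (fun l' hl' => by
      rw [cn_single]
      exact single_mem ⟨by simp only [List.length_cons, hl'.1], hl'.2.cons_cons x⟩ _) ih

theorem ext_congr {V : Type} [AddCommGroup V] {D D' : List α → V}
    {P : List α → Prop} (h : ∀ l, P l → D l = D' l) {c : Cz α} (hc : c ∈ Sz P) :
    ext D c = ext D' c :=
  eq_of_mem (fun l hl => by rw [ext_single, ext_single, h l hl]) hc

/-! ### The prism -/

/-- The prism between two maps. -/
noncomputable def prl (f g : α → β) : List α → Cz β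
  | [] => 0
  | a :: l => single (f a :: g a :: l.map g) 1 - cn (f a) (prl f g l)

/-- The prism operator. -/
noncomputable def pr (f g : α → β) : Cz α →+ Cz β := ext (prl f g)

theorem pr_cn (f g : α → β) (a : α) (c : Cz α) :
    pr f g (cn a c) = cn (f a) (cn (g a) (mp g c)) - cn (f a) (pr f g c) := by
  have := lin_ext_apply (f := (pr f g).comp (cn a))
    (g := (cn (f a)).comp ((cn (g a)).comp (mp g)) - (cn (f a)).comp (pr f g)) (fun l => by
      simp only [AddMonoidHom.comp_apply, AddMonoidHom.sub_apply, cn_single, mp_single, pr, ext_single,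
        one_smul, prl]) c
  simpa using this

theorem bd_prl (f g : α → β) : ∀ l : List α,
    bd (prl f g l) + pr f g (bdl l) = single (l.map g) 1 - single (l.map f) 1
  | [] => by simp [prl, bdl]
  | a :: l => by
    have ih := bd_prl f g l
    have e : pr f g (single l 1) = prl f g l := by simp [pr]
    have e1 : pr f g (bdl (a :: l)) = prl f g l - (cn (f a) (cn (g a) (bdl (l.map g))) -
        cn (f a) (pr f g (bdl l))) := by
      rw [bdl_cons, map_sub, pr_cn, e, bdl_map]
    rw [e1, prl, map_sub, bd_single, one_smul, bdl_cons, bd_cn, bdl_cons, List.map_cons,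
      List.map_cons]
    have e2 : bd (prl f g l) = single (l.map g) 1 - single (l.map f) 1 - pr f g (bdl l) := by
      rw [← ih]; abel
    rw [e2]
    simp only [map_sub, cn_single]
    abel

theorem bd_pr (f g : α → β) (c : Cz α) : bd (pr f g c) + pr f g (bd c) = mp g c - mp f c := by
  have := lin_ext_apply (f := bd.comp (pr f g) + (pr f g).comp bd) (g := mp g - mp f) (fun l => by
    simp only [AddMonoidHom.add_apply, AddMonoidHom.comp_apply, AddMonoidHom.sub_apply, bd_single, one_smul,
      mp_single, pr, ext_single]
    exact bd_prl f g l) c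
  simpa using this

theorem prl_mem (f g : α → β) (l : List α) : prl f g l ∈ Sz fun l' =>
    l'.length = l.length + 1 ∧ ∀ y ∈ l', ∃ x ∈ l, y = f x ∨ y = g x := by
  induction l with
  | nil => exact AddSubgroup.zero_mem _
  | cons a l ih =>
    rw [prl]
    refine AddSubgroup.sub_mem _ (single_mem (P := fun l' => l'.length = (a :: l).length + 1 ∧
      ∀ y ∈ l', ∃ x ∈ (a :: l), y = f x ∨ y = g x) ⟨by simp, fun y hy => ?_⟩ _) ?_
    · rcases List.mem_cons.1 hy with rfl | hy
      · exact ⟨a, by simp, Or.inl rfl⟩
      rcases List.mem_cons.1 hy with rfl | hy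
      · exact ⟨a, by simp, Or.inr rfl⟩
      obtain ⟨x, hx, rfl⟩ := List.mem_map.1 hy
      exact ⟨x, by simp [hx], Or.inr rfl⟩
    · refine map_mem _ (fun l' hl' => ?_) ih
      rw [cn_single]
      refine single_mem ⟨by simp [hl'.1], fun y hy => ?_⟩ _
      rcases List.mem_cons.1 hy with rfl | hy
      · exact ⟨a, by simp, Or.inl rfl⟩
      · obtain ⟨x, hx, h⟩ := hl'.2 y hy
        exact ⟨x, by simp [hx], h⟩

/-! ### Comparison with the chains over a field -/

/-- Change of coefficients. -/
noncomputable def cz (k : Type) [Field k] : Cz α →+ Sl.Ch k α :=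
  Finsupp.mapRange.addMonoidHom (Int.castAddHom k)

@[simp] theorem cz_single (l : List α) (r : ℤ) : cz k (single l r) = single l (r : k) := by
  simp [cz]

/-- Evaluation of a function on lists on an integral chain. -/
noncomputable def evz (f : List α → k) : Cz α →+ k := ext f

@[simp] theorem evz_single (f : List α → k) (l : List α) (r : ℤ) :
    evz f (single l r) = r * f l := by
  simp [evz]

theorem evz_cn (f : List α → k) (x : α) (c : Cz α) :
    evz f (cn x c) = evz (fun l => f (x :: l)) c := by
  have := lin_ext_apply (f := (evz f).comp (cn x)) (g := evz (fun l => f (x :: l)))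
    (fun l => by simp) c
  simpa using this

theorem dl_eq (f : List α → k) (l : List α) : Sl.dl f l = evz f (bdl l) := by
  induction l generalizing f with
  | nil => rw [Sl.dl, Sl.bdL_nil, map_zero, bdl_nil, map_zero]
  | cons x l ih =>
    rw [Sl.dl, Sl.bdL_cons, map_sub, Sl.ev_single, one_mul, Sl.ev_cons, bdl_cons, map_sub,
      evz_single, Int.cast_one, one_mul, evz_cn, ← ih]
    rfl

theorem evz_mp (f : List β → k) (g : α → β) (c : Cz α) :
    evz f (mp g c) = evz (fun l => f (l.map g)) c := by
  have := lin_ext_apply (f := (evz f).comp (mp g)) (g := evz (fun l => f (l.map g)))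
    (fun l => by simp) c
  simpa using this

theorem evz_dl (f : List α → k) (c : Cz α) : evz (Sl.dl f) c = evz f (bd c) := by
  have := lin_ext_apply (f := evz (Sl.dl f)) (g := (evz f).comp bd)
    (fun l => by simp [dl_eq]) c
  simpa using this

theorem evz_congr {f g : List α → k} {P : List α → Prop} (h : ∀ l, P l → f l = g l) {c : Cz α}
    (hc : c ∈ Sz P) : evz f c = evz g c :=
  ext_congr h hc

theorem evz_zero_of {f : List α → k} {P : List α → Prop} (h : ∀ l, P l → f l = 0) {c : Cz α}
    (hc : c ∈ Sz P) : evz f c = 0 := by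
  have := eq_of_mem (F := evz f) (G := 0) (fun l hl => by rw [evz_single, h l hl]; simp) hc
  simpa using this

/-- Evaluation on the extension of an operator. -/
theorem evz_ext (f : List β → k) (D : List α → Cz β) (c : Cz α) :
    evz f (ext D c) = evz (fun l => evz f (D l)) c := by
  have := lin_ext_apply (f := (evz f).comp (ext D)) (g := evz fun l => evz f (D l))
    (fun l => by simp) c
  simpa using this

theorem dl_evz (f : List β → k) (D : List α → Cz β) (l : List α) :
    Sl.dl (fun l => evz f (D l)) l = evz f (ext D (bdl l)) := by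
  rw [dl_eq, evz_ext]

theorem bd_ext (D : List α → Cz β) (c : Cz α) : bd (ext D c) = ext (fun l => bd (D l)) c := by
  have := lin_ext_apply (f := bd.comp (ext D)) (g := ext fun l => bd (D l))
    (fun l => by simp) c
  simpa using this

theorem ext_ext (D : List β → Cz γ) (G : List α → Cz β) (c : Cz α) :
    ext D (ext G c) = ext (fun l => ext D (G l)) c := by
  have := lin_ext_apply (f := (ext D).comp (ext G)) (g := ext fun l => ext D (G l))
    (fun l => by simp) c
  simpa using this

theorem ext_sub (D D' : List α → Cz β) (c : Cz α) :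
    ext (fun l => D l - D' l) c = ext D c - ext D' c := by
  have := lin_ext_apply (f := ext fun l => D l - D' l) (g := ext D - ext D')
    (fun l => by simp) c
  simpa using this

theorem ext_bdl (c : Cz α) : ext bdl c = bd c := rfl

theorem ext_mp {V : Type} [AddCommGroup V] (D : List β → V) (g : α → β) (c : Cz α) :
    ext D (mp g c) = ext (fun l => D (l.map g)) c := by
  have := lin_ext_apply (f := (ext D).comp (mp g)) (g := ext fun l => D (l.map g))
    (fun l => by simp) c
  simpa using this

theorem ext_single_id (c : Cz α) : ext (fun l => (single l 1 : Cz α)) c = c := by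
  have := lin_ext_apply (f := ext fun l => (single l 1 : Cz α)) (g := AddMonoidHom.id _)
    (fun l => by simp) c
  simpa using this

end Vale.Agent.P216.D773
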