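import Vale.Agent.P216.D773.Main
import Vale.Agent.P216.D773.CtrU

/-!
# Descent of the cohomology ring from a field of characteristic zero to `ℚ`
-/

open Finsupp Set Topology

namespace Vale.Agent.P216.D773

open Vale.Agent.P216 (Sl.dl Sl.toL Sl.ofL)
open Vale.Agent.P216.ASCoh

section

variable {α : Type}

theorem ext_hom {V W : Type} [AddCommGroup V] [AddCommGroup W] (π : V →+ W) (D : List α → V)
    (c : Cz α) : ext (fun l => π (D l)) c = π (ext D c) := by
  have := lin_ext_apply (f := ext fun l => π (D l)) (g := π.comp (ext D))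
    (fun l => by simp) c
  simpa using this

theorem dl_hom {K L : Type} [Field K] [Field L] (π : K →+ L) (f : List α → K) (l : List α) :
    Sl.dl (fun l => π (f l)) l = π (Sl.dl f l) := by
  rw [dl_eq, dl_eq]
  exact ext_hom π f _

end

section

variable {M : Type} [MetricSpace M] {K : Type} [Field K]

theorem ExL.hom {L : Type} [Field L] {m : ℕ} {f : List M → K} (hf : ExL m f) (π : K →+ L) :
    ExL m fun l => π (f l) := by
  obtain ⟨ε, hε, g, hg⟩ := hf
  refine ⟨ε, hε, fun l => π (g l), fun l hl hs => ?_⟩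
  change π (f l) = _
  rw [hg l hl hs, dl_hom]

theorem CocL.hom {L : Type} [Field L] {m : ℕ} {f : List M → K} (hf : CocL m f) (π : K →+ L) :
    CocL m fun l => π (f l) := by
  obtain ⟨ε, hε, h⟩ := hf
  exact ⟨ε, hε, fun l hl hs => by rw [dl_hom, h l hl hs, map_zero]⟩

theorem exL_zero (m : ℕ) : ExL m fun _ : List M => (0 : K) :=
  ⟨1, one_pos, fun _ => 0, fun l _ _ => by
    rw [dl_eq]
    have : evz (fun _ : List M => (0 : K)) = 0 := lin_ext fun l => by simp
    rw [this]; rfl⟩

theorem ExL.sum {ι : Type} (s : Finset ι) {m : ℕ} {f : ι → List M → K}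
    (h : ∀ i ∈ s, ExL m (f i)) : ExL m fun l => ∑ i ∈ s, f i l := by
  classical
  induction s using Finset.induction_on with
  | empty => simpa using exL_zero m
  | insert a s ha ih =>
    refine ((h a (Finset.mem_insert_self a s)).add
      (ih fun i hi => h i (Finset.mem_insert_of_mem hi))).congr one_pos fun l _ _ => ?_
    rw [Finset.sum_insert ha]

end

section Lin

variable {K : Type} [Field K] [CharZero K]

/-- A rational functional on `K` which is the identity on `ℚ`. -/
theorem exists_ret : ∃ π : K →ₗ[ℚ] ℚ, ∀ q : ℚ, π (q : K) = q := by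
  obtain ⟨g, hg⟩ := LinearMap.exists_leftInverse_of_injective
    (Algebra.linearMap ℚ K) (LinearMap.ker_eq_bot.2 (algebraMap ℚ K).injective)
  refine ⟨g, fun q => ?_⟩
  have := LinearMap.congr_fun hg q
  simpa using this

theorem lin_mul (π : K →ₗ[ℚ] ℚ) (a : K) (q : ℚ) : π (a * (q : K)) = π a * q := by
  have e : a * (q : K) = q • a := by rw [Algebra.smul_def, mul_comm]; rfl
  rw [e, map_smul, smul_eq_mul, mul_comm]

/-- Finitely many elements have rational coordinates. -/
theorem exists_coords {S : Set K} (hS : S.Finite) : ∃ (n : ℕ) (r : Fin n → K)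
    (π : Fin n → K →ₗ[ℚ] ℚ), ∀ v ∈ S, v = ∑ i, r i * ((π i v : ℚ) : K) := by
  classical
  let V := Submodule.span ℚ S
  have : FiniteDimensional ℚ V := FiniteDimensional.span_of_finite ℚ hS
  let b := Module.finBasis ℚ V
  have h : ∀ i, ∃ g : K →ₗ[ℚ] ℚ, g ∘ₗ V.subtype = b.coord i := fun i =>
    LinearMap.exists_extend (b.coord i)
  choose π hπ using h
  refine ⟨_, fun i => (b i : K), π, fun v hv => ?_⟩
  have hv' : v ∈ V := Submodule.subset_span hv
  have h1 := congrArg Subtype.val (b.sum_repr ⟨v, hv'⟩)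
  rw [AddSubmonoidClass.coe_finsetSum] at h1
  simp only [Submodule.coe_smul] at h1
  rw [← h1]
  refine Finset.sum_congr rfl fun i _ => ?_
  have h2 := LinearMap.congr_fun (hπ i) ⟨v, hv'⟩
  simp only [LinearMap.comp_apply, Submodule.subtype_apply, Module.Basis.coord_apply] at h2
  rw [h1, h2, Algebra.smul_def, mul_comm]
  rfl

end Lin

variable {M : Type} [MetricSpace M] {K : Type} [Field K] [CharZero K]

/-- Exactness over `K` and over `ℚ`. -/
theorem exL_rat {m : ℕ} {f : List M → ℚ} (h : ExL m fun l => (f l : K)) : ExL m f := by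
  obtain ⟨π, hπ⟩ := exists_ret (K := K)
  exact (h.hom π.toAddMonoidHom).congr one_pos fun l _ _ => hπ (f l)

theorem ExL.cast {m : ℕ} {f : List M → ℚ} (h : ExL m f) : ExL m fun l => (f l : K) :=
  h.hom (Rat.castHom K).toAddMonoidHom

theorem CocL.cast {m : ℕ} {f : List M → ℚ} (h : CocL m f) : CocL m fun l => (f l : K) :=
  h.hom (Rat.castHom K).toAddMonoidHom

/-- A nonzero class over `K` gives a nonzero class over `ℚ`. -/
theorem exists_rat_class {N : ℕ} (X : FMod M N) {m : ℕ} (hm : 1 ≤ m) (hN : m + 1 ≤ N)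
    {f : List M → K} (hf : CocL m f) (hne : ¬ ExL m f) :
    ∃ y : List M → ℚ, CocL m y ∧ ¬ ExL m y := by
  obtain ⟨ε, hε, hf'⟩ := hf
  obtain ⟨b, hb, η, hη, g, hg⟩ := X.repr K m hm hN f ε hε hf'
  obtain ⟨n, r, π, hπ⟩ := exists_coords (K := K) ((X.fin m).image b)
  by_contra hcon
  push Not at hcon
  have hi : ∀ i, ExL m fun l => ((π i (b (l.map X.φ)) : ℚ) : K) := fun i =>
    (hcon (fun l => π i (b (l.map X.φ))) ⟨X.s, X.s_pos, fun l hl hs => by
      have h1 := dl_hom (π i).toAddMonoidHom (fun l => b (l.map X.φ)) l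
      have h2 : Sl.dl (fun l => b (l.map X.φ)) l = 0 := by
        rw [dl_map]
        exact hb _ (X.adm l hs) (by rw [List.length_map, hl])
      rw [h2, map_zero] at h1
      exact h1⟩).cast
  refine hne (((ExL.sum Finset.univ fun i _ => (hi i).smul (r i)).add
    (f := fun l => ∑ i, r i * ((π i (b (l.map X.φ)) : ℚ) : K))
    (g := fun l => f l - b (l.map X.φ)) ⟨η, hη, g, hg⟩).congr X.s_pos fun l hl hs => ?_)
  rw [← hπ (b (l.map X.φ)) ⟨_, ⟨X.adm l hs, by rw [List.length_map, hl]⟩, rfl⟩]
  ring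

omit [MetricSpace M] [CharZero K] in
theorem pw_ratCast [CharZero K] {d : ℕ} (y : List M → ℚ) (j : ℕ) (l : List M) :
    ((pw d y j l : ℚ) : K) = pw d (fun l => (y l : K)) j l := by
  induction j generalizing l with
  | zero => rw [pw_zero, pw_zero, Rat.cast_one]
  | succ j ih => rw [pw_succ, pw_succ, Rat.cast_mul, ih]

/-- **Descent.** -/
theorem monogenic_rat_of [CompactSpace M] [ConnectedSpace M] {R : ℝ} (hR : 0 < R) (C : Ctr M R)
    {d h : ℕ} (hd : 1 ≤ d) (hK : Monogenic M K d h) : Monogenic M ℚ d h := by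
  obtain ⟨x, hx, hne, hsp⟩ := hK
  have hxL : CocL (d + 1) (Sl.toL x) := isCocycle_iff.1 hx
  obtain ⟨π, hπ⟩ := exists_ret (K := K)
  -- the rational generator
  obtain ⟨y, hy, c, hc, hyx⟩ : ∃ y : List M → ℚ, CocL (d + 1) y ∧ ∃ c : K, (1 ≤ h → c ≠ 0 ∧
      ExL (d + 1) fun l => c * Sl.toL x l - (y l : K)) ∧ True := by
    rcases Nat.eq_zero_or_pos h with h0 | h1
    · refine ⟨fun _ => 0, ⟨1, one_pos, fun l _ _ => ?_⟩, 0, fun h => by omega, trivial⟩
      rw [dl_eq]
      have : evz (fun _ : List M => (0 : ℚ)) = 0 := lin_ext fun l => by simp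
      rw [this]; rfl
    · obtain ⟨X⟩ := exists_fMod hR C (d + 2)
      have hx0 : ¬ ExL (d + 1) (Sl.toL x) := fun hex => by
        refine hne 1 h1 ((isCobd_iff (by omega)).2 ?_)
        have h2 : ExL (d * 1 + 1) (Sl.toL x) := by rw [mul_one]; exact hex
        refine h2.congr one_pos fun l hl _ => ?_
        rw [toL_power x 1 hl, pw_succ, pw_zero, mul_zero, List.drop_zero, one_mul]
      obtain ⟨y, hy, hy0⟩ := exists_rat_class X (by omega) (by omega) hxL hx0
      refine ⟨y, hy, ?_⟩
      have hyK : CocL (d + 1) fun l => (y l : K) := hy.cast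
      have hy' : IsCocycle (Sl.ofL (d + 1) (fun l => (y l : K)) : Cochain M K d) :=
        isCocycle_iff.2 (hyK.congr one_pos fun l hl _ =>
          (Sl.toL_ofL (fun l => (y l : K)) hl).symm)
      rcases hsp _ _ hy' with h2 | ⟨j, hj, e, c, hc⟩
      · refine absurd (exL_rat (K := K) (((isCobd_iff hd).1 h2).congr one_pos fun l hl _ => ?_)) hy0
        rw [Sl.toL_ofL _ hl]
      · have hj1 : j = 1 := Nat.eq_of_mul_eq_mul_left hd (e.trans (mul_one d).symm)
        subst hj1
        have hc' := (isCobd_iff hd).1 hc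
        have hc2 : ExL (d + 1) fun l => (y l : K) - c * Sl.toL x l :=
          hc'.congr one_pos fun l hl _ => by
            rw [Sl.toL_sub, Sl.toL_smul, Sl.toL_ofL _ hl]
            congr 2
            have key : ∀ {q : ℕ} (e : d * 1 = q) (l : List M), l.length = q + 1 →
                Sl.toL (e ▸ power x 1 : Cochain M K q) l = pw d (Sl.toL x) 1 l := by
              rintro q rfl l hl
              exact toL_power x 1 hl
            rw [key e l hl, pw_succ, pw_zero, mul_zero, List.drop_zero, one_mul]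
        refine ⟨c, fun _ => ⟨fun h0 => hy0 (exL_rat (K := K) (hc2.congr one_pos fun l _ _ => ?_)),
          (hc2.smul (-1)).congr one_pos fun l _ _ => ?_⟩, trivial⟩
        · rw [h0]; ring
        · ring
  clear hyx
  have hyK : CocL (d + 1) fun l => (y l : K) := hy.cast
  have hcx : CocL (d + 1) fun l => c * Sl.toL x l := by
    obtain ⟨ε, hε, H⟩ := hxL
    exact ⟨ε, hε, fun l hl hs => by rw [dl_smul, H l hl hs, mul_zero]⟩
  have hpow : ∀ j, 1 ≤ j → j ≤ h → c ≠ 0 ∧ ExL (d * j + 1) fun l =>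
      c ^ j * pw d (Sl.toL x) j l - ((pw d y j l : ℚ) : K) := fun j hj hjh => by
    obtain ⟨h1, h2⟩ := hc (by omega)
    exact ⟨h1, (pw_exL hd hcx hyK h2 j hj).congr one_pos fun l _ _ => by
      rw [pw_smul, pw_ratCast]⟩
  set w : Cochain M ℚ d := Sl.ofL (d + 1) y with hw
  have hwL : ∀ l : List M, l.length = d + 1 → Sl.toL w l = y l := fun l hl => Sl.toL_ofL y hl
  have hpw : ∀ j, ∀ l : List M, l.length = d * j + 1 → Sl.toL (power w j) l = pw d y j l :=
    fun j l hl => by rw [toL_power w j hl, pw_congr hwL j l hl]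
  refine ⟨w, isCocycle_iff.2 (hy.congr one_pos fun l hl _ => (hwL l hl).symm),
    fun j hj hex => ?_, fun q f hf => ?_⟩
  · rcases Nat.eq_zero_or_pos j with rfl | hj1
    · have hex' : LocZero (fun _ => 1 : Cochain M ℚ 0) := hex
      obtain ⟨x₀⟩ := (inferInstance : Nonempty M)
      obtain ⟨U, hU, hz⟩ := hex' x₀
      exact one_ne_zero (hz (fun _ => x₀) fun _ => mem_of_mem_nhds hU)
    · have hdj1 : 1 ≤ d * j := Nat.mul_pos hd hj1
      obtain ⟨h1, h2⟩ := hpow j hj1 hj
      have h3 : ExL (d * j + 1) fun l => ((pw d y j l : ℚ) : K) :=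
        (((isCobd_iff hdj1).1 hex).congr one_pos fun l hl _ => hpw j l hl).cast
      refine hne j hj ((isCobd_iff hdj1).2 (((h2.add h3).smul (c ^ j)⁻¹).congr one_pos
        fun l hl _ => ?_))
      rw [toL_power x j hl]
      have : c ^ j ≠ 0 := pow_ne_zero _ h1
      field_simp
      ring
  · rcases Nat.eq_zero_or_pos q with rfl | hq1
    · right
      obtain ⟨x₀⟩ := (inferInstance : Nonempty M)
      refine ⟨0, Nat.zero_le _, rfl, f fun _ => x₀, ?_⟩
      have e : f - (f fun _ => x₀) • (fun _ => 1 : Cochain M ℚ 0) = 0 := by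
        funext σ
        have h1 : σ = fun _ => σ 0 := funext fun i => congrArg σ (Fin.ext (by omega))
        have h2 := const_of_cocycle hf x₀ (σ 0)
        rw [← h1] at h2
        simp only [Pi.sub_apply, Pi.smul_apply, smul_eq_mul, mul_one, Pi.zero_apply, h2, sub_self]
      change LocZero (f - (f fun _ => x₀) • (fun _ => 1 : Cochain M ℚ 0))
      rw [e]
      exact fun x => ⟨univ, Filter.univ_mem, fun _ _ => rfl⟩
    · have hfL := isCocycle_iff.1 hf
      have hfK : IsCocycle (Sl.ofL (q + 1) (fun l => ((Sl.toL f l : ℚ) : K)) : Cochain M K q) :=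
        isCocycle_iff.2 ((hfL.cast (K := K)).congr one_pos fun l hl _ =>
          (Sl.toL_ofL (fun l => ((Sl.toL f l : ℚ) : K)) hl).symm)
      rcases hsp _ _ hfK with h2 | ⟨j, hj, e, a, ha⟩
      · left
        refine (isCobd_iff hq1).2 (exL_rat (K := K) (((isCobd_iff hq1).1 h2).congr one_pos
          fun l hl _ => ?_))
        rw [Sl.toL_ofL _ hl]
      · subst e
        have hj1 : 1 ≤ j := Nat.one_le_iff_ne_zero.2 fun h0 => by
          rw [h0, mul_zero] at hq1; omega
        obtain ⟨h1, h2⟩ := hpow j hj1 hj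
        have hcj : c ^ j ≠ 0 := pow_ne_zero _ h1
        have h3 : ExL (d * j + 1) fun l => ((Sl.toL f l : ℚ) : K) -
            a / c ^ j * ((pw d y j l : ℚ) : K) :=
          (((isCobd_iff hq1).1 ha).add (h2.smul (a / c ^ j))).congr one_pos fun l hl _ => by
            rw [Sl.toL_sub, Sl.toL_smul, Sl.toL_ofL _ hl, toL_power x j hl]
            field_simp
            ring
        refine Or.inr ⟨j, hj, rfl, π (a / c ^ j), (isCobd_iff hq1).2
          ((h3.hom π.toAddMonoidHom).congr one_pos fun l hl _ => ?_)⟩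
        rw [Sl.toL_sub, Sl.toL_smul, hpw j l hl]
        change π _ = _
        rw [map_sub, hπ, lin_mul]

/-- **Descent** (compact spaces with unique short segments). -/
theorem monogenic_rat [CompactSpace M] [ConnectedSpace M] {ρ : ℝ} (hρ : 0 < ρ)
    (hU : LS.UniqSeg M ρ) {d h : ℕ} (hd : 1 ≤ d) (hK : Monogenic M K d h) :
    Monogenic M ℚ d h :=
  monogenic_rat_of (half_pos hρ) (ctrU hU (half_lt_self hρ)) hd hK

end Vale.Agent.P216.D773
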