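import Vale.Agent.P216.D773.ChZ

/-!
# P216-D, block [RAT] : filling fine cycles in small balls
-/

open Finsupp Set

namespace Vale.Agent.P216.D773

/-- Contractions of the balls of radius `R`, uniformly continuous. -/
structure Ctr (M : Type) [MetricSpace M] (R : ℝ) where
  H : M → M → ℝ → M
  zero : ∀ c x, dist c x ≤ R → H c x 0 = x
  one : ∀ c x, dist c x ≤ R → H c x 1 = c
  le : ∀ c x t, dist c x ≤ R → t ∈ Icc (0 : ℝ) 1 → dist c (H c x t) ≤ dist c x
  uc : ∀ ε > 0, ∃ δ > 0, ∀ c x x' t t', dist c x ≤ R → dist c x' ≤ R → dist x x' < δ →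
    t ∈ Icc (0 : ℝ) 1 → t' ∈ Icc (0 : ℝ) 1 → |t - t'| < δ → dist (H c x t) (H c x' t') < ε

variable {M : Type} [MetricSpace M]

/-- Lists of length `m` with entries in the ball of radius `r` at `c` and mutual distances `< ε`. -/
def Fn (c : M) (r ε : ℝ) (m : ℕ) (l : List M) : Prop :=
  l.length = m ∧ (∀ x ∈ l, dist c x ≤ r) ∧ ∀ x ∈ l, ∀ y ∈ l, dist x y < ε

theorem mp_congr {α β : Type} {f g : α → β} {P : List α → Prop}
    (h : ∀ l, P l → ∀ x ∈ l, f x = g x) {c : Cz α} (hc : c ∈ Sz P) : mp f c = mp g c :=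
  ext_congr (fun l hl => by rw [List.map_congr_left (h l hl)]) hc

theorem mp_id {α : Type} (c : Cz α) : mp (fun x => x) c = c := by
  have : mp (fun x : α => x) = AddMonoidHom.id _ := lin_ext fun l => by simp
  rw [this]; rfl

/-- **Filling.** -/
theorem fill {R : ℝ} (C : Ctr M R) {ε : ℝ} (hε : 0 < ε) : ∃ δ, 0 < δ ∧ δ ≤ ε ∧ ∀ (c : M) (r : ℝ),
    r ≤ R → ∀ (m : ℕ) (z : Cz M), z ∈ Sz (Fn c r δ (m + 1)) → bd z = 0 →
    ∃ w ∈ Sz (Fn c r ε (m + 2)), bd w = z := by
  obtain ⟨δ₀, hδ₀, huc⟩ := C.uc ε hε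
  refine ⟨min δ₀ ε, lt_min hδ₀ hε, min_le_right _ _, fun c r hr m z hz hb => ?_⟩
  obtain ⟨K, hK⟩ := exists_nat_one_div_lt hδ₀
  have hK0 : (0 : ℝ) < K + 1 := by positivity
  let s : ℕ → M → M := fun j x => C.H c x (j / (K + 1))
  have hmem : ∀ j ≤ K + 1, ((j : ℝ) / (K + 1)) ∈ Icc (0 : ℝ) 1 := fun j hj =>
    ⟨by positivity, by
      rw [div_le_one hK0]
      exact_mod_cast hj⟩
  have hbP : ∀ (f g : M → M), bd (pr f g z) = mp g z - mp f z := fun f g => by
    have := bd_pr f g z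
    rwa [hb, map_zero, add_zero] at this
  refine ⟨cn c (mp (fun _ => c) z) - ∑ j ∈ Finset.range (K + 1), pr (s j) (s (j + 1)) z, ?_, ?_⟩
  · refine AddSubgroup.sub_mem _ ?_ (AddSubgroup.sum_mem _ fun j hj => ?_)
    · refine map_mem (F := (cn c).comp (mp fun _ => c)) (fun l hl => ?_) hz
      rw [AddMonoidHom.comp_apply, mp_single, cn_single]
      have hr0 : 0 ≤ r := by
        obtain ⟨x, hx⟩ := List.exists_mem_of_length_pos (l := l) (by rw [hl.1]; omega)
        exact dist_nonneg.trans (hl.2.1 x hx)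
      have hall : ∀ x ∈ c :: l.map fun _ => c, x = c := fun x hx => by
        rcases List.mem_cons.1 hx with h | h
        · exact h
        · obtain ⟨y, -, rfl⟩ := List.mem_map.1 h
          rfl
      refine single_mem ⟨by simp [hl.1], fun x hx => ?_, fun x hx y hy => ?_⟩ _
      · rw [hall x hx, dist_self]; exact hr0
      · rw [hall x hx, hall y hy, dist_self]; exact hε
    · have hj' : j < K + 1 := Finset.mem_range.1 hj
      refine map_mem (F := pr (s j) (s (j + 1))) (fun l hl => ?_) hz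
      rw [pr, ext_single, one_smul]
      refine Sz_mono (fun l' hl' => ?_) (prl_mem (s j) (s (j + 1)) l)
      have key : ∀ y ∈ l', ∃ x ∈ l, ∃ i, (i = j ∨ i = j + 1) ∧ y = C.H c x ((i : ℕ) / (K + 1)) :=
        fun y hy => by
          obtain ⟨x, hx, h | h⟩ := hl'.2 y hy
          · exact ⟨x, hx, j, Or.inl rfl, h⟩
          · exact ⟨x, hx, j + 1, Or.inr rfl, h⟩
      have hi : ∀ i, (i = j ∨ i = j + 1) → i ≤ K + 1 := fun i hi => by omega
      refine ⟨by rw [hl'.1, hl.1], fun y hy => ?_, fun y hy y' hy' => ?_⟩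
      · obtain ⟨x, hx, i, hi1, rfl⟩ := key y hy
        exact (C.le c x _ ((hl.2.1 x hx).trans hr) (hmem i (hi i hi1))).trans (hl.2.1 x hx)
      · obtain ⟨x, hx, i, hi1, rfl⟩ := key y hy
        obtain ⟨x', hx', i', hi1', rfl⟩ := key y' hy'
        refine huc c x x' _ _ ((hl.2.1 x hx).trans hr) ((hl.2.1 x' hx').trans hr)
          ((hl.2.2 x hx x' hx').trans_le (min_le_left _ _)) (hmem i (hi i hi1))
          (hmem i' (hi i' hi1')) (lt_of_le_of_lt ?_ hK)
        rw [← sub_div, abs_div, abs_of_pos hK0]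
        refine div_le_div_of_nonneg_right ?_ hK0.le
        rcases hi1 with rfl | rfl <;> rcases hi1' with rfl | rfl <;> simp
  · rw [map_sub, bd_cn, bd_mp, hb, map_zero, map_zero, sub_zero, map_sum]
    have e1 : ∑ j ∈ Finset.range (K + 1), bd (pr (s j) (s (j + 1)) z) =
        mp (s (K + 1)) z - mp (s 0) z := by
      rw [Finset.sum_congr rfl fun j _ => hbP (s j) (s (j + 1))]
      exact Finset.sum_range_sub (fun j => mp (s j) z) (K + 1)
    have e2 : mp (s (K + 1)) z = mp (fun _ => c) z := mp_congr (fun l hl x hx => by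
      have : ((K + 1 : ℕ) : ℝ) / (K + 1) = 1 := by
        push_cast; exact div_self hK0.ne'
      change C.H c x (((K + 1 : ℕ) : ℝ) / (K + 1)) = c
      rw [this, C.one c x ((hl.2.1 x hx).trans hr)]) hz
    have e3 : mp (s 0) z = z := by
      have : mp (s 0) z = mp (fun x => x) z := mp_congr (fun l hl x hx => by
        change C.H c x (((0 : ℕ) : ℝ) / (K + 1)) = x
        rw [Nat.cast_zero, zero_div, C.zero c x ((hl.2.1 x hx).trans hr)]) hz
      rw [this, mp_id]
    rw [e1, e2, e3]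
    abel

end Vale.Agent.P216.D773
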