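import Vale.Agent.P216.D773.Main
import Vale.Agent.P216.H754.Norm

/-!
# P216-E, block [E1] : integral cocycles with non exact reduction
-/

open Finsupp Set

namespace Vale.Agent.P216.D773

open Vale.Agent.P216 (Sl.dl Sl.ev)

/-! ### Integral chains and rational chains -/

section

variable {α k : Type} [Field k]

theorem cz_cn (x : α) (c : Cz α) : cz k (cn x c) = Sl.cons x (cz k c) := by
  have := lin_ext_apply (f := (cz k).comp (cn x))
    (g := (Sl.cons (k := k) x).toAddMonoidHom.comp (cz k)) (fun l => by simp) c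
  simpa using this

theorem cz_bdl (l : List α) : cz k (bdl l) = Sl.bdL l := by
  induction l with
  | nil => rw [bdl_nil, map_zero, Sl.bdL_nil]
  | cons x l ih => rw [bdl_cons, map_sub, cz_cn, ih, Sl.bdL_cons, cz_single, Int.cast_one]

theorem cz_bd (c : Cz α) : cz k (bd c) = Sl.bd (cz k c) := by
  have := lin_ext_apply (f := (cz k).comp bd)
    (g := (Sl.bd (k := k) (α := α)).toAddMonoidHom.comp (cz k)) (fun l => by
      simp [cz_bdl]) c
  simpa using this

theorem ev_cz (f : List α → k) (c : Cz α) : Sl.ev f (cz k c) = evz f c := by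
  have := lin_ext_apply (f := (Sl.ev f).toAddMonoidHom.comp (cz k)) (g := evz f)
    (fun l => by simp) c
  simpa using this

theorem cz_apply (c : Cz α) (l : List α) : cz k c l = (c l : k) := by
  simp [cz]

theorem cz_inj {c c' : Cz α} (h : cz ℚ c = cz ℚ c') : c = c' := by
  ext l
  have := DFunLike.congr_fun h l
  rw [cz_apply, cz_apply] at this
  exact_mod_cast this

/-- Integral detection. -/
theorem exists_int_cycle {P : List α → Prop} {f : List α → ℚ}
    (h : ¬ ∃ g : List α → ℚ, ∀ l, P l → f l = Sl.dl g l) :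
    ∃ w ∈ Sz P, bd w = 0 ∧ evz f w ≠ 0 := by
  classical
  obtain ⟨c, hc, hb, h1⟩ := Sl.exists_cycle h
  obtain ⟨n, hn, z, hz⟩ := exists_int c.support.finite_toSet (fun l => c l)
  have hn' : (n : ℚ) ≠ 0 := by exact_mod_cast hn
  let w : Cz α := Finsupp.onFinset c.support (fun l => if l ∈ c.support then z l else 0)
    fun l hl => by
      by_contra h
      exact hl (if_neg h)
  have hw : ∀ l, w l = if l ∈ c.support then z l else 0 := fun l => rfl
  have hcw : cz ℚ w = (n : ℚ) • c := by
    ext l
    rw [cz_apply, hw, Finsupp.smul_apply, smul_eq_mul]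
    by_cases hl : l ∈ c.support
    · rw [if_pos hl]; exact hz l hl
    · rw [if_neg hl, Finsupp.notMem_support_iff.1 hl]; simp
  refine ⟨w, fun l hl => ?_, cz_inj ?_, ?_⟩
  · have hl' : l ∈ c.support := by
      by_contra h
      exact hl (by rw [hw, if_neg h])
    exact (Finsupp.mem_supported _ _).1 hc hl'
  · rw [cz_bd, hcw, map_smul, hb, smul_zero, map_zero]
  · rw [← ev_cz, hcw, map_smul, h1, smul_eq_mul, mul_one]
    exact hn'

end

section

variable {α : Type}

theorem ext_mul_left (p : ℤ) (f : List α → ℤ) (c : Cz α) :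
    ext (fun l => p * f l) c = p * ext f c := by
  have := lin_ext_apply (f := ext fun l => p * f l) (g := (AddMonoidHom.mulLeft p).comp (ext f))
    (fun l => by simp) c
  simpa using this

theorem ext_sub_fun {V : Type} [AddCommGroup V] (f g : List α → V) (c : Cz α) :
    ext (fun l => f l - g l) c = ext f c - ext g c := by
  have := lin_ext_apply (f := ext fun l => f l - g l) (g := ext f - ext g)
    (fun l => by simp) c
  simpa using this

theorem ext_ext' {β V : Type} [AddCommGroup V] (f : List β → V) (D : List α → Cz β) (c : Cz α) :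
    ext (fun l => ext f (D l)) c = ext f (ext D c) := by
  have := lin_ext_apply (f := ext fun l => ext f (D l)) (g := (ext f).comp (ext D))
    (fun l => by simp) c
  simpa using this

end

variable {M : Type} [MetricSpace M]

namespace FMod

variable {N : ℕ} (X : FMod M N)

/-- `E` maps cycles to cycles, and cocycles to cocycles. -/
theorem ext_bdE {m : ℕ} (hN : m + 1 ≤ N) {V : Type} [AddCommGroup V] {z : List M → V}
    (hz : ∀ l, X.Adm l → l.length = m + 1 → ext z (bdl l) = 0) {l : List M} (hl : X.Adm l)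
    (hm : l.length = m + 1) : ext z (ext X.E (bdl l)) = 0 := by
  have hne : l ≠ [] := fun h => by rw [h] at hm; simp at hm
  have h1 := X.memE l hl hne (by omega)
  rw [← X.bdE l hl hne (by omega)]
  have h2 : ext z (bd (X.E l)) = ext (fun l => ext z (bdl l)) (X.E l) := by
    rw [ext_ext', ext_bdl]
  rw [h2, ext_congr (D' := fun _ => 0) (fun w hw => hz w hw.1 (by rw [hw.2, hm])) h1]
  have h3 : ext (fun _ : List M => (0 : V)) = 0 := lin_ext fun l => by simp
  rw [h3]
  rfl

theorem bd_ext_E {m : ℕ} (hm : 1 ≤ m) (hN : m ≤ N) {w : Cz M}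
    (hw : w ∈ Sz fun l => X.Adm l ∧ l.length = m) (hb : bd w = 0) : bd (ext X.E w) = 0 := by
  rw [bd_ext, ext_congr (D' := fun l => ext X.E (bdl l)) (fun l hl => X.bdE l hl.1 (fun h => by
    have := hl.2
    rw [h] at this
    simp at this
    omega) (by rw [hl.2]; exact hN)) hw, ← ext_ext, ext_bdl, hb, map_zero]

/-- **An integral cocycle with non exact reduction.** -/
theorem exists_mod {m : ℕ} (hm : 1 ≤ m) (hN : m + 1 ≤ N) {z₀ : List M → ℤ} (hz₀ : X.CocZ m z₀)
    (h : ¬ ExL m fun l => (z₀ (l.map X.φ) : ℚ)) (p : ℕ) [Fact p.Prime] :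
    ∃ z : List M → ℤ, X.CocZ m z ∧ ¬ ExL m fun l => (z (l.map X.φ) : ZMod p) := by
  classical
  have hp : (p : ℤ) ≠ 0 := by exact_mod_cast (Fact.out : p.Prime).ne_zero
  have hmemE : ∀ l, X.Adm l → l.length = m → X.E l ∈ Sz fun w => X.Adm w ∧ w.length = m :=
    fun l hl h => by
      have hne : l ≠ [] := fun e => by rw [e] at h; simp at h; omega
      have := X.memE l hl hne (by omega)
      rwa [h] at this
  have hne : ¬ ∃ g : List M → ℚ, ∀ l, (X.Adm l ∧ l.length = m) →
      evz (fun l => (z₀ l : ℚ)) (X.E l) = Sl.dl g l := fun ⟨g, hg⟩ =>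
    h ((X.exact_iff ℚ m hm hN (fun l => (z₀ l : ℚ)) (CocZ.dl_eq X hz₀ ℚ)).2
      ⟨g, fun l hl hlm => hg l ⟨hl, hlm⟩⟩)
  obtain ⟨w, hw, hbw, hv⟩ := exists_int_cycle hne
  rw [← evz_ext, evz_cast] at hv
  set v := ext X.E w with hvdef
  have hvm : v ∈ Sz fun l => X.Adm l ∧ l.length = m :=
    map_mem (F := ext X.E) (fun l hl => by
      rw [ext_single, one_smul]; exact hmemE l hl.1 hl.2) hw
  have hbv : bd v = 0 := X.bd_ext_E hm (by omega) hw hbw
  have hv0 : ext z₀ v ≠ 0 := fun h0 => hv (by rw [h0, Int.cast_zero])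
  -- the value of a cocycle on `v` is not changed by `E`
  have hE : ∀ z, X.CocZ m z → ext z (ext X.E v) = ext z v := by
    intro z hz
    have hzQ := CocZ.dl_eq X hz ℚ
    have hb' : ∀ l, X.Adm l → l.length = m + 1 →
        Sl.dl (fun l => (z l : ℚ) - evz (fun l => (z l : ℚ)) (X.E l)) l = 0 := fun l hl hlm => by
      have e : (fun l => (z l : ℚ) - evz (fun l => (z l : ℚ)) (X.E l)) =
          fun l => (z l : ℚ) + (-1) * evz (fun l => (z l : ℚ)) (X.E l) := by funext l; ring
      rw [e, dl_add, dl_smul, hzQ l hl hlm, dl_evz]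
      have h1 := X.ext_bdE hN (z := fun l => (z l : ℚ)) (fun l hl hlm => by
        have := hzQ l hl hlm
        rwa [dl_eq] at this) hl hlm
      change 0 + -1 * ext (fun l => (z l : ℚ)) (ext X.E (bdl l)) = 0
      rw [h1]
      ring
    obtain ⟨a, ha⟩ := (X.exact_iff ℚ m hm hN _ hb').1 (X.homE ℚ m hm hN _ hzQ)
    have h2 : evz (fun l => (z l : ℚ) - evz (fun l => (z l : ℚ)) (X.E l)) v = 0 := by
      rw [hvdef, evz_ext, evz_congr (g := Sl.dl a) (fun l hl => ha l hl.1 hl.2) hw, evz_dl, hbw,
        map_zero]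
    have h3 : evz (fun l => (z l : ℚ) - evz (fun l => (z l : ℚ)) (X.E l)) v =
        evz (fun l => (z l : ℚ)) v - evz (fun l => (z l : ℚ)) (ext X.E v) := by
      rw [evz, ext_sub_fun]
      congr 1
      exact (evz_ext _ _ _).symm
    rw [h3, evz_cast, evz_cast, sub_eq_zero] at h2
    exact_mod_cast h2.symm
  by_contra hcon
  push Not at hcon
  have key : ∀ n : ℕ, ∀ z, X.CocZ m z → (ext z v).natAbs = n → n = 0 := by
    intro n
    induction n using Nat.strong_induction_on with
    | _ n ih =>
      intro z hz hn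
      by_contra hn0
      obtain ⟨a, ha⟩ := (X.exact_iff (ZMod p) m hm hN (fun l => (z l : ZMod p))
        (CocZ.dl_eq X hz (ZMod p))).1 (hcon z hz)
      have hdiv : ∀ l, ∃ y : ℤ, X.Adm l → l.length = m →
          ext z (X.E l) - ext (fun l => ((a l).val : ℤ)) (bdl l) = p * y := fun l => by
        by_cases hl : X.Adm l ∧ l.length = m
        · have h1 := ha l hl.1 hl.2
          have h2 : (fun l => (((a l).val : ℤ) : ZMod p)) = a := funext fun l => by
            rw [Int.cast_natCast, ZMod.natCast_zmod_val]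
          have h3 : ((ext (fun l => ((a l).val : ℤ)) (bdl l) : ℤ) : ZMod p) = Sl.dl a l := by
            rw [← dl_cast, h2]
          have h4 : ((ext z (X.E l) - ext (fun l => ((a l).val : ℤ)) (bdl l) : ℤ) : ZMod p) = 0 := by
            rw [Int.cast_sub, h3, ← h1, evz_cast, sub_self]
          obtain ⟨y, hy⟩ := (ZMod.intCast_zmod_eq_zero_iff_dvd _ p).1 h4
          exact ⟨y, fun _ _ => hy⟩
        · exact ⟨0, fun h1 h2 => absurd ⟨h1, h2⟩ hl⟩
      choose y hy using hdiv
      have hyc : X.CocZ m y := fun l hl hlm => by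
        have h1 : (p : ℤ) * ext y (bdl l) = 0 := by
          rw [← ext_mul_left, ext_congr (D' := fun l => ext z (X.E l) -
            ext (fun l => ((a l).val : ℤ)) (bdl l)) (fun l' hl' => (hy l' hl'.1 hl'.2).symm)
            (X.bdl_mem l hl hlm), ext_sub_fun, ext_ext', ext_ext', ext_bdl, bd_bdl, map_zero,
            sub_zero]
          exact X.ext_bdE hN hz hl hlm
        exact (mul_eq_zero.1 h1).resolve_left hp
      have hyv : (p : ℤ) * ext y v = ext z v := by
        rw [← ext_mul_left, ext_congr (D' := fun l => ext z (X.E l) -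
            ext (fun l => ((a l).val : ℤ)) (bdl l)) (fun l' hl' => (hy l' hl'.1 hl'.2).symm)
            hvm, ext_sub_fun, ext_ext', ext_ext', ext_bdl, hbv, map_zero, sub_zero]
        exact hE z hz
      have hn1 : n = p * (ext y v).natAbs := by
        rw [← hn, ← hyv, Int.natAbs_mul, Int.natAbs_natCast]
      have hp2 := (Fact.out : p.Prime).two_le
      have hy0 : (ext y v).natAbs ≠ 0 := fun h0 => hn0 (by rw [hn1, h0, mul_zero])
      exact hy0 (ih _ (by rw [hn1]; nlinarith [Nat.pos_of_ne_zero hy0]) y hyc rfl)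
  exact hv0 (Int.natAbs_eq_zero.1 (key _ z₀ hz₀ rfl))

end FMod

end Vale.Agent.P216.D773
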