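import Vale.Agent.P216.D773.IntA
import Vale.Agent.P216.D773.CtrU
import Vale.Agent.P216.H787.Cls

/-!
# P216-E, block [E1] : integral normalised cocycles with non exact reduction
-/

open Finsupp Set

namespace Vale.Agent.P216.D773

open Vale.Agent.P216 (Sl.dl Sl.ev)

/-! ### Integral normalisation -/

section

variable {α k : Type} [Field k]

/-- The normalisation of `H754/Norm`, as an integral chain. -/
noncomputable def nuz : ℕ → List α → Cz α
  | 0, l => single l 1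
  | _ + 1, [] => 0
  | n + 1, x :: l => cn x (ext (nuz n) (bdl (x :: l)))

theorem cz_nuz (n : ℕ) : ∀ l : List α, cz k (nuz n l) = Sl.nuL n l := by
  induction n with
  | zero => intro l; rw [nuz, cz_single, Int.cast_one, Sl.nuL_zero]
  | succ n ih =>
    intro l
    rcases l with _ | ⟨x, l⟩
    · rw [nuz, map_zero]; rfl
    · rw [nuz, cz_cn, Sl.nuL_cons, ← cz_bdl]
      congr 1
      have := lin_ext_apply (f := (cz k).comp (ext (nuz n)))
        (g := (Sl.nu (k := k) n).toAddMonoidHom.comp (cz k)) (fun l => by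
          simp [ih]) (bdl (x :: l))
      simpa using this

/-- Normalisation of an integer valued function. -/
noncomputable def nrz (z : List α → ℤ) (l : List α) : ℤ := ext z (nuz l.length l)

theorem nrz_cast (z : List α → ℤ) (l : List α) :
    ((nrz z l : ℤ) : k) = Sl.nrm (fun l => (z l : k)) l := by
  rw [nrz, ← evz_cast, Sl.nrm, ← cz_nuz, ev_cz]

theorem nrz_nrm (z : List α → ℤ) (l : List α) (hl : ¬ l.IsChain (· ≠ ·)) : nrz z l = 0 := by
  have h := Sl.nrm_Nrm (fun l => (z l : ℚ)) l hl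
  rw [← nrz_cast] at h
  exact_mod_cast h

end

variable {M : Type} [MetricSpace M] {k : Type} [Field k]

theorem smL_iff {ε : ℝ} {l : List M} : PS.SmL (univ : Set M) ε l ↔ Sml ε l :=
  ⟨fun h => h.2, fun h => ⟨fun _ _ => mem_univ _, h⟩⟩

theorem cocL_iff {q : ℕ} {f : List M → k} : Sl.CocL (univ : Set M) q f ↔ CocL (q + 1) f :=
  ⟨fun ⟨ε, hε, h⟩ => ⟨ε, hε, fun l hl hs => h l hl (smL_iff.2 hs)⟩,
    fun ⟨ε, hε, h⟩ => ⟨ε, hε, fun l hl hs => h l hl (smL_iff.1 hs)⟩⟩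

theorem exL_iff {q : ℕ} (hq : 1 ≤ q) {f : List M → k} :
    Sl.ExL (univ : Set M) q f ↔ ExL (q + 1) f :=
  ⟨fun ⟨g, _, ε, hε, h⟩ => ⟨ε, hε, g, fun l hl hs => h l hl (smL_iff.2 hs)⟩,
    fun ⟨ε, hε, g, h⟩ => ⟨g, fun h0 => by omega, ε, hε, fun l hl hs => h l hl (smL_iff.1 hs)⟩⟩

/-- Normalisation does not change the class. -/
theorem exL_nrm_sub {m : ℕ} {f : List M → k} (hf : CocL m f) :
    ExL m fun l => Sl.nrm f l - f l := by
  obtain ⟨ε, hε, H⟩ := hf
  refine ⟨ε, hε, Sl.hmt f, fun l hl hs => ?_⟩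
  change Sl.nrm f l - f l = _
  rw [Sl.nrm_sub, Sl.hmt_eq_zero fun l' h1 h2 => H l' (by omega) fun x hx y hy =>
    hs x (h2 x hx) y (h2 y hy), add_zero]

theorem cocL_nrm {m : ℕ} {f : List M → k} (hf : CocL m f) : CocL m (Sl.nrm f) := by
  obtain ⟨ε, hε, H⟩ := hf
  refine ⟨ε, hε, fun l hl hs => ?_⟩
  rw [Sl.dl_nrm]
  exact Sl.nrm_eq_zero fun l' h1 h2 => H l' (by omega) fun x hx y hy =>
    hs x (h2 x hx) y (h2 y hy)

/-- **[E1]** On a compact `M` with unique short segments, a non exact rational cocycle of degree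
`q ≥ 1` gives an integral normalised cocycle `c` whose reduction modulo `p` is not exact. -/
theorem int_cocycle [CompactSpace M] {ρ : ℝ} (hρ : 0 < ρ) (hU : LS.UniqSeg M ρ) {q : ℕ}
    (hq : 1 ≤ q) (h : ∃ f : List M → ℚ, Sl.CocL (univ : Set M) q f ∧ ¬ Sl.ExL (univ : Set M) q f)
    (p : ℕ) [Fact p.Prime] :
    ∃ c : List M → ℤ, (∀ l : List M, ¬ l.IsChain (· ≠ ·) → c l = 0) ∧
      (∃ ε > 0, ∀ l : List M, l.length = q + 2 → (∀ x ∈ l, ∀ y ∈ l, dist x y < ε) →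
        ext c (bdl l) = 0) ∧
      ¬ Sl.ExL (univ : Set M) q fun l => (c l : ZMod p) := by
  obtain ⟨f, hf, hne⟩ := h
  rw [cocL_iff] at hf
  rw [exL_iff hq] at hne
  obtain ⟨X⟩ := exists_fMod (half_pos hρ) (ctrU hU (half_lt_self hρ)) (q + 2)
  obtain ⟨ε, hε, hf'⟩ := hf
  obtain ⟨b, hb, η, hη, g, hg⟩ := X.repr ℚ (q + 1) (by omega) (by omega) f ε hε hf'
  obtain ⟨n, hn, z, hz'⟩ := exists_int (X.fin (q + 1)) b
  have hnQ : (n : ℚ) ≠ 0 := by exact_mod_cast hn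
  have hz : X.CocZ (q + 1) z := fun l hl hlm => by
    have : ((ext z (bdl l) : ℤ) : ℚ) = 0 := by
      rw [← dl_cast, dl_congr (g := fun l => n * b l) (fun l' h1 h2 =>
        hz' l' ⟨X.sub _ _ h2 hl, by omega⟩), dl_smul, hb l hl hlm, mul_zero]
    exact_mod_cast this
  have hxz : ExL (q + 1) fun l => n * f l - (z (l.map X.φ) : ℚ) :=
    (ExL.smul (f := fun l => f l - b (l.map X.φ)) ⟨η, hη, g, hg⟩ (n : ℚ)).congr X.s_pos
      fun l hl hs => by
        rw [hz' _ ⟨X.adm l hs, by rw [List.length_map, hl]⟩]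
        ring
  have hz0 : ¬ ExL (q + 1) fun l => (z (l.map X.φ) : ℚ) := fun hex => hne
    (((hxz.add hex).smul (1 / n)).congr one_pos fun l _ _ => by field_simp; ring)
  obtain ⟨z₁, hz₁, hne₁⟩ := X.exists_mod (by omega) (by omega) hz hz0 p
  refine ⟨nrz fun l => z₁ (l.map X.φ), nrz_nrm _, ?_, ?_⟩
  · obtain ⟨ε, hε, H⟩ := cocL_nrm (FMod.CocZ.cocL X hz₁ ℚ)
    refine ⟨ε, hε, fun l hl hs => ?_⟩
    have h1 := H l hl hs
    have h2 : (Sl.nrm fun l => ((z₁ (l.map X.φ) : ℤ) : ℚ)) =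
        fun l => ((nrz (fun l => z₁ (l.map X.φ)) l : ℤ) : ℚ) :=
      funext fun l => (nrz_cast _ l).symm
    rw [h2, dl_cast] at h1
    exact_mod_cast h1
  · rw [exL_iff hq]
    intro hex
    refine hne₁ ?_
    have h1 := exL_nrm_sub (FMod.CocZ.cocL X hz₁ (ZMod p))
    refine ((hex.add (h1.smul (-1))).congr one_pos fun l _ _ => ?_)
    rw [nrz_cast]
    ring

/-- The same from a `Monogenic` space. -/
theorem int_of_monogenic [CompactSpace M] {ρ : ℝ} (hρ : 0 < ρ) (hU : LS.UniqSeg M ρ) {d h : ℕ}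
    (hd : 1 ≤ d) (hh : 1 ≤ h) (hQ : ASCoh.Monogenic M ℚ d h) (p : ℕ) [Fact p.Prime] :
    ∃ c : List M → ℤ, (∀ l : List M, ¬ l.IsChain (· ≠ ·) → c l = 0) ∧
      (∃ ε > 0, ∀ l : List M, l.length = d + 2 → (∀ x ∈ l, ∀ y ∈ l, dist x y < ε) →
        ext c (bdl l) = 0) ∧
      ¬ Sl.ExL (univ : Set M) d fun l => (c l : ZMod p) := by
  obtain ⟨x, hx, hne, -⟩ := hQ
  refine int_cocycle hρ hU hd ⟨Sl.toL x, cocL_iff.2 (isCocycle_iff.1 hx), fun hex => ?_⟩ p
  refine hne 1 hh ((isCobd_iff (by omega)).2 ?_)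
  rw [exL_iff hd] at hex
  have h1 : ExL (d * 1 + 1) (Sl.toL x) := by rw [mul_one]; exact hex
  refine h1.congr one_pos fun l hl _ => ?_
  rw [toL_power x 1 hl, pw_succ, pw_zero, mul_zero, List.drop_zero, one_mul]

/-- Degree two, explicit form. -/
theorem int_two [CompactSpace M] {ρ : ℝ} (hρ : 0 < ρ) (hU : LS.UniqSeg M ρ) {h : ℕ}
    (hh : 1 ≤ h) (hQ : ASCoh.Monogenic M ℚ 2 h) (p : ℕ) [Fact p.Prime] :
    ∃ c : List M → ℤ, (∀ l : List M, ¬ l.IsChain (· ≠ ·) → c l = 0) ∧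
      (∃ ε > 0, ∀ x y z w : M, dist x y < ε → dist x z < ε → dist x w < ε → dist y z < ε →
        dist y w < ε → dist z w < ε →
        c [y, z, w] - c [x, z, w] + c [x, y, w] - c [x, y, z] = 0) ∧
      ¬ Sl.ExL (univ : Set M) 2 fun l => (c l : ZMod p) := by
  obtain ⟨c, h1, ⟨ε, hε, h2⟩, h3⟩ := int_of_monogenic hρ hU one_le_two hh hQ p
  refine ⟨c, h1, ⟨ε, hε, fun x y z w a1 a2 a3 a4 a5 a6 => ?_⟩, h3⟩
  have h4 := h2 [x, y, z, w] rfl fun a ha b hb => by
    simp only [List.mem_cons, List.not_mem_nil, or_false] at ha hb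
    rcases ha with rfl | rfl | rfl | rfl <;> rcases hb with rfl | rfl | rfl | rfl <;>
      first
      | (rw [dist_self]; exact hε)
      | assumption
      | (rw [dist_comm]; assumption)
  simp only [bdl_cons, bdl_nil, map_sub, cn_single, ext_single, one_smul, map_zero, sub_zero] at h4
  linarith

end Vale.Agent.P216.D773
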