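import Mathlib

/-!
# P216-D, block [RAT] : the linear algebra over `ℤ`, `ℚ` and over the fields `k` with `N ≠ 0`
-/

namespace Vale.Agent.P216.D773

open Matrix

/-- An integral matrix acting on vectors over a field. -/
def act (k : Type) [Field k] {I J : Type} [Fintype J] (A : Matrix I J ℤ) (b : J → k) : I → k :=
  (A.map (Int.cast : ℤ → k)) *ᵥ b

/-- If `E` maps `ker Q` into `range P` over `ℚ`, it does so over every field in which `N ≠ 0`. -/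
def LA1 : Prop := ∀ (I₀ I₁ I₂ : Type) [Fintype I₀] [Fintype I₁] [Fintype I₂] [DecidableEq I₀]
  [DecidableEq I₁] [DecidableEq I₂] (P : Matrix I₁ I₀ ℤ) (Q : Matrix I₂ I₁ ℤ)
  (E : Matrix I₁ I₁ ℤ),
  (∀ b : I₁ → ℚ, act ℚ Q b = 0 → ∃ a : I₀ → ℚ, act ℚ E b = act ℚ P a) →
  ∃ N : ℕ, N ≠ 0 ∧ ∀ (k : Type) [Field k], (N : k) ≠ 0 →
    ∀ b : I₁ → k, act k Q b = 0 → ∃ a : I₀ → k, act k E b = act k P a

/-- If an integral vector `w` is not in `range P` over `ℚ`, it is not in `range P` over every field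
in which `N ≠ 0`. -/
def LA3 : Prop := ∀ (I₀ I₁ : Type) [Fintype I₀] [Fintype I₁] [DecidableEq I₀]
  [DecidableEq I₁] (P : Matrix I₁ I₀ ℤ) (w : I₁ → ℤ),
  (¬ ∃ a : I₀ → ℚ, (fun i => (w i : ℚ)) = act ℚ P a) →
  ∃ N : ℕ, N ≠ 0 ∧ ∀ (k : Type) [Field k], (N : k) ≠ 0 →
    ¬ ∃ a : I₀ → k, (fun i => (w i : k)) = act k P a

end Vale.Agent.P216.D773
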