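import Vale.Agent.P216.D773.Trans
import Vale.Agent.P216.H787.Fib

/-!
# P216-D, block [RAT] : cup powers of functions on lists
-/

open Finsupp Set Matrix

namespace Vale.Agent.P216.D773

open Vale.Agent.P216 (Sl.dl Sl.cup Sl.dl_cup)

/-- Cup powers of `f` (on lists of length `d + 1`); `pw d f j` is used on lists of length
`d * j + 1`. -/
def pw {R A : Type} [CommRing R] (d : ℕ) (f : List A → R) : ℕ → List A → R
  | 0 => fun _ => 1
  | j + 1 => fun l => pw d f j (l.take (d * j + 1)) * f (l.drop (d * j))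

section Alg

variable {R A B k : Type} [CommRing R] [Field k] {d : ℕ}

theorem pw_zero (f : List A → R) (l : List A) : pw d f 0 l = 1 := rfl

theorem pw_succ (f : List A → R) (j : ℕ) (l : List A) :
    pw d f (j + 1) l = pw d f j (l.take (d * j + 1)) * f (l.drop (d * j)) := rfl

theorem pw_succ' (f : List A → k) (j : ℕ) : pw d f (j + 1) = Sl.cup (d * j) (pw d f j) f := rfl

theorem pw_smul (c : R) (f : List A → R) (j : ℕ) (l : List A) :
    pw d (fun l => c * f l) j l = c ^ j * pw d f j l := by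
  induction j generalizing l with
  | zero => rw [pw_zero, pw_zero, pow_zero, one_mul]
  | succ j ih => rw [pw_succ, pw_succ, ih, pow_succ]; ring

theorem pw_map (f : List B → R) (φ : A → B) (j : ℕ) (l : List A) :
    pw d (fun l => f (l.map φ)) j l = pw d f j (l.map φ) := by
  induction j generalizing l with
  | zero => rfl
  | succ j ih => rw [pw_succ, pw_succ, ih, List.map_take, List.map_drop]

theorem pw_cast (z : List A → ℤ) (j : ℕ) (l : List A) :
    ((pw d z j l : ℤ) : k) = pw d (fun l => (z l : k)) j l := by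
  induction j generalizing l with
  | zero => rw [pw_zero, pw_zero, Int.cast_one]
  | succ j ih => rw [pw_succ, pw_succ, Int.cast_mul, ih]

theorem pw_congr {f g : List A → R} (h : ∀ l, l.length = d + 1 → f l = g l) (j : ℕ) :
    ∀ l : List A, l.length = d * j + 1 → pw d f j l = pw d g j l := by
  induction j with
  | zero => intro l _; rfl
  | succ j ih =>
    intro l hl
    have hl' : l.length = d * j + d + 1 := by rw [hl]; ring
    rw [pw_succ, pw_succ, ih _ (by rw [List.length_take]; omega),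
      h _ (by rw [List.length_drop]; omega)]

theorem dl_pw {P : List A → Prop} (hP : ∀ l l' : List A, l'.Sublist l → P l → P l')
    {f : List A → k} (hf : ∀ l, P l → l.length = d + 2 → Sl.dl f l = 0) (j : ℕ) :
    ∀ l, P l → l.length = d * j + 2 → Sl.dl (pw d f j) l = 0 := by
  induction j with
  | zero =>
    intro l _ hl
    rw [mul_zero, zero_add] at hl
    obtain ⟨a, b, rfl⟩ := List.length_eq_two.1 hl
    rw [dl_eq, bdl_cons, bdl_cons, bdl_nil, map_zero, sub_zero, cn_single, map_sub, evz_single,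
      evz_single, pw_zero, pw_zero, sub_self]
  | succ j ih =>
    intro l hP' hl
    have hl' : l.length = d * j + d + 2 := by rw [hl]; ring
    rw [pw_succ', Sl.dl_cup _ _ _ _ (by omega)]
    have h1 : Sl.dl (pw d f j) (l.take (d * j + 1 + 1)) = 0 :=
      ih _ (hP _ _ (List.take_sublist _ _) hP') (by rw [List.length_take]; omega)
    have h2 : Sl.dl f (l.drop (d * j)) = 0 :=
      hf _ (hP _ _ (List.drop_sublist _ _) hP') (by rw [List.length_drop]; omega)
    rw [Sl.cup, Sl.cup, h1, h2]
    ring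

end Alg

variable {M : Type} [MetricSpace M] {k : Type} [Field k] {d : ℕ}

theorem Sml.sub {ε : ℝ} {l l' : List M} (h : l'.Sublist l) (hl : Sml ε l) : Sml ε l' :=
  fun x hx y hy => hl x (h.subset hx) y (h.subset hy)

theorem pw_cocL {f : List M → k} (hf : CocL (d + 1) f) (j : ℕ) : CocL (d * j + 1) (pw d f j) := by
  obtain ⟨ε, hε, H⟩ := hf
  exact ⟨ε, hε, fun l hl hs => dl_pw (P := Sml ε) (fun _ _ h h' => Sml.sub h h')
    (fun l h1 h2 => H l h2 h1) j l hs hl⟩

theorem cocZ_pw {N : ℕ} (X : FMod M N) {z : List M → ℤ} (hz : X.CocZ (d + 1) z) (j : ℕ) :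
    X.CocZ (d * j + 1) (pw d z j) := fun l hl hlm => by
  have h := dl_pw (P := X.Adm) X.sub (fun l h1 h2 => FMod.CocZ.dl_eq X hz ℚ l h1 h2) j l hl hlm
  have e : pw d (fun l => (z l : ℚ)) j = fun l => ((pw d z j l : ℤ) : ℚ) :=
    funext fun l => (pw_cast z j l).symm
  rw [e, dl_cast] at h
  exact_mod_cast h

theorem pw_exL (hd : 1 ≤ d) {f g : List M → k} (hf : CocL (d + 1) f) (hg : CocL (d + 1) g)
    (h : ExL (d + 1) fun l => f l - g l) (j : ℕ) (hj : 1 ≤ j) :
    ExL (d * j + 1) fun l => pw d f j l - pw d g j l := by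
  induction j, hj using Nat.le_induction with
  | base =>
    rw [mul_one]
    refine h.congr one_pos fun l _ _ => ?_
    rw [pw_succ, pw_succ, pw_zero, pw_zero, mul_zero, List.drop_zero, one_mul, one_mul]
  | succ j hj ih =>
    obtain ⟨ε₁, hε₁, hf'⟩ := hf
    obtain ⟨ε₂, hε₂, hg'⟩ := pw_cocL hg j
    obtain ⟨ε₃, hε₃, a, ha⟩ := h
    obtain ⟨ε₄, hε₄, b, hb⟩ := ih
    have hdj : 1 ≤ d * j := Nat.mul_pos hd hj
    obtain ⟨p, hp⟩ : ∃ p, d * j = p + 1 := ⟨d * j - 1, by omega⟩
    refine ⟨min (min ε₁ ε₂) (min ε₃ ε₄), by positivity, fun l => Sl.cup p b f l +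
      (-1) ^ (d * j) * Sl.cup (d * j) (pw d g j) a l, fun l hl hs => ?_⟩
    have hl' : l.length = d * j + d + 1 := by rw [hl]; ring
    have hs₁ : Sml ε₁ l := hs.mono ((min_le_left _ _).trans (min_le_left _ _))
    have hs₂ : Sml ε₂ l := hs.mono ((min_le_left _ _).trans (min_le_right _ _))
    have hs₃ : Sml ε₃ l := hs.mono ((min_le_right _ _).trans (min_le_left _ _))
    have hs₄ : Sml ε₄ l := hs.mono ((min_le_right _ _).trans (min_le_right _ _))
    have h1 : Sl.dl f (l.drop p) = 0 :=
      hf' _ (by rw [List.length_drop]; omega) (hs₁.sub (List.drop_sublist _ _))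
    have h2 : Sl.dl (pw d g j) (l.take (d * j + 1 + 1)) = 0 :=
      hg' _ (by rw [List.length_take]; omega) (hs₂.sub (List.take_sublist _ _))
    have h3 := ha (l.drop (d * j)) (by rw [List.length_drop]; omega)
      (hs₃.sub (List.drop_sublist _ _))
    have h4 := hb (l.take (d * j + 1)) (by rw [List.length_take]; omega)
      (hs₄.sub (List.take_sublist _ _))
    simp only at h3 h4
    change pw d f j (l.take (d * j + 1)) * f (l.drop (d * j)) -
      pw d g j (l.take (d * j + 1)) * g (l.drop (d * j)) = _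
    rw [dl_add, dl_smul, Sl.dl_cup _ _ _ _ (by omega), Sl.dl_cup _ _ _ _ (by omega)]
    simp only [Sl.cup]
    rw [h1, h2, ← h3, ← hp, ← h4]
    have h5 : ((-1 : k) ^ (d * j)) * (-1) ^ (d * j) = 1 := by
      rw [← mul_pow]; simp
    linear_combination (pw d g j (l.take (d * j + 1)) * (g (l.drop (d * j)) -
      f (l.drop (d * j)))) * h5

end Vale.Agent.P216.D773
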