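import Vale.Agent.P216.D773.Bridge
import Vale.Agent.P216.D55.La
import Vale.Agent.P216.D773.Pow

/-!
# P216-D, block [RAT] : from `ℚ` to all fields in which `N ≠ 0`
-/

open Finsupp Set Matrix Topology

namespace Vale.Agent.P216.D773

open Vale.Agent.P216 (Sl.dl Sl.toL Sl.ofL)
open Vale.Agent.P216.ASCoh

theorem exists_common {ι : Type} (s : Finset ι) {P : ι → ∀ (k : Type) [Field k], Prop}
    (h : ∀ i ∈ s, ∃ N : ℕ, N ≠ 0 ∧ ∀ (k : Type) [Field k], (N : k) ≠ 0 → P i k) :
    ∃ N : ℕ, N ≠ 0 ∧ ∀ (k : Type) [Field k], (N : k) ≠ 0 → ∀ i ∈ s, P i k := by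
  classical
  induction s using Finset.induction_on with
  | empty => exact ⟨1, one_ne_zero, fun k _ _ i hi => absurd hi (Finset.notMem_empty i)⟩
  | insert a s _ ih =>
    obtain ⟨N, hN, H⟩ := ih fun i hi => h i (Finset.mem_insert_of_mem hi)
    obtain ⟨N', hN', H'⟩ := h a (Finset.mem_insert_self a s)
    refine ⟨N * N', mul_ne_zero hN hN', fun k _ hk i hi => ?_⟩
    rw [Nat.cast_mul] at hk
    rcases Finset.mem_insert.1 hi with rfl | hi
    · exact H' k (right_ne_zero_of_mul hk)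
    · exact H k (left_ne_zero_of_mul hk) i hi

/-- Clearing denominators on a finite set. -/
theorem exists_int {α : Type} {S : Set α} (hS : S.Finite) (b : α → ℚ) :
    ∃ n : ℕ, n ≠ 0 ∧ ∃ z : α → ℤ, ∀ l ∈ S, (z l : ℚ) = n * b l := by
  classical
  refine ⟨∏ l ∈ hS.toFinset, (b l).den, Finset.prod_ne_zero_iff.2 fun l _ => (b l).den_nz, ?_⟩
  have : ∀ l, ∃ z : ℤ, l ∈ S → (z : ℚ) = (∏ l ∈ hS.toFinset, (b l).den : ℕ) * b l := fun l => by
    by_cases hl : l ∈ S
    · obtain ⟨c, hc⟩ := Finset.dvd_prod_of_mem (fun l => (b l).den) (hS.mem_toFinset.2 hl)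
      refine ⟨c * (b l).num, fun _ => ?_⟩
      rw [hc]
      push_cast
      have := Rat.den_mul_eq_num (b l)
      rw [← this]
      ring
    · exact ⟨0, fun h => absurd h hl⟩
  choose z hz using this
  exact ⟨z, fun l hl => hz l hl⟩

section

variable {M : Type} [MetricSpace M] {k : Type} [Field k]

omit [MetricSpace M] in
theorem toL_power {d : ℕ} (x : Cochain M k d) (j : ℕ) : ∀ {l : List M}, l.length = d * j + 1 →
    Sl.toL (power x j) l = pw d (Sl.toL x) j l := by
  induction j with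
  | zero =>
    intro l hl
    obtain ⟨σ, rfl⟩ := Sl.exists_ofFn hl
    exact Sl.toL_ofFn (power x 0) σ
  | succ j ih =>
    intro l hl
    have hl' : l.length = d * j + d + 1 := by rw [hl]; ring
    have h1 : Sl.toL (power x (j + 1)) l =
        Sl.toL (power x j) (l.take (d * j + 1)) * Sl.toL x (l.drop (d * j)) :=
      toL_cup (p := d * j) (q := d) (power x j) x hl'
    rw [h1, ih (by rw [List.length_take]; omega)]
    rfl

/-- A cocycle of degree zero is constant. -/
theorem const_of_cocycle [CompactSpace M] [PreconnectedSpace M] {f : Cochain M k 0}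
    (h : IsCocycle f) (x y : M) : f (fun _ => x) = f fun _ => y := by
  obtain ⟨ε, hε, H⟩ := isCocycle_iff.1 h
  have key : ∀ x y : M, dist x y < ε → f (fun _ => y) = f fun _ => x := fun x y hxy => by
    have h1 := H [x, y] rfl fun a ha b hb => by
      simp only [List.mem_cons, List.not_mem_nil, or_false] at ha hb
      rcases ha with rfl | rfl <;> rcases hb with rfl | rfl
      · rw [dist_self]; exact hε
      · exact hxy
      · rw [dist_comm]; exact hxy
      · rw [dist_self]; exact hε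
    rw [dl_eq, bdl_cons, bdl_cons, bdl_nil, map_zero, sub_zero, cn_single, map_sub, evz_single,
      evz_single] at h1
    have e : ∀ a : M, Sl.toL f [a] = f fun _ => a := fun a => by
      have := Sl.toL_ofFn f fun _ => a
      rwa [List.ofFn_const] at this
    rw [e, e, Int.cast_one, one_mul, one_mul, sub_eq_zero] at h1
    exact h1
  have hlc : IsLocallyConstant fun x : M => f fun _ => x :=
    (IsLocallyConstant.iff_eventually_eq _).2 fun x => by
      filter_upwards [Metric.ball_mem_nhds x hε] with y hy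
      exact key x y (by rw [dist_comm]; exact Metric.mem_ball.1 hy)
  exact hlc.apply_eq_of_preconnectedSpace x y

end

variable {M : Type} [MetricSpace M]

/-- **Block [RAT].** -/
theorem rat_main [CompactSpace M] [ConnectedSpace M] {R : ℝ} (hR : 0 < R) (C : Ctr M R)
    {d h : ℕ} (hd : 1 ≤ d) (hQ : Monogenic M ℚ d h) (Q₀ : ℕ) :
    ∃ N₀ : ℕ, N₀ ≠ 0 ∧ ∀ (k : Type) [Field k], (N₀ : k) ≠ 0 →
      (∀ q, Q₀ < q → ∀ f : Cochain M k q, IsCocycle f → IsCobd f) → Monogenic M k d h := by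
  obtain ⟨Q, hQ₀, hQd, hQdh⟩ : ∃ Q, Q₀ ≤ Q ∧ d ≤ Q ∧ d * h ≤ Q :=
    ⟨Q₀ + d + d * h, by omega, by omega, by omega⟩
  obtain ⟨X⟩ := exists_fMod hR C (Q + 2)
  obtain ⟨x, hx, hne, hsp⟩ := hQ
  have hxL : CocL (d + 1) (Sl.toL x) := isCocycle_iff.1 hx
  obtain ⟨ε, hε, hxε⟩ := hxL
  obtain ⟨b, hb, η, hη, g, hg⟩ := X.repr ℚ (d + 1) (by omega) (by omega) (Sl.toL x) ε hε hxε
  obtain ⟨n, hn, z, hz'⟩ := exists_int (X.fin (d + 1)) b
  have hnQ : (n : ℚ) ≠ 0 := by exact_mod_cast hn
  have hz : X.CocZ (d + 1) z := fun l hl hlm => by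
    have : ((ext z (bdl l) : ℤ) : ℚ) = 0 := by
      rw [← dl_cast, dl_congr (g := fun l => n * b l) (fun l' h1 h2 =>
        hz' l' ⟨X.sub _ _ h2 hl, by omega⟩), dl_smul, hb l hl hlm, mul_zero]
    exact_mod_cast this
  have hxz : ExL (d + 1) fun l => n * Sl.toL x l - (z (l.map X.φ) : ℚ) :=
    (ExL.smul (f := fun l => Sl.toL x l - b (l.map X.φ)) ⟨η, hη, g, hg⟩ (n : ℚ)).congr X.s_pos
      fun l hl hs => by
        rw [hz' _ ⟨X.adm l hs, by rw [List.length_map, hl]⟩]
        ring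
  have hnx : CocL (d + 1) fun l => n * Sl.toL x l :=
    ⟨ε, hε, fun l hl hs => by rw [dl_smul, hxε l hl hs, mul_zero]⟩
  have hpow : ∀ j, 1 ≤ j → ExL (d * j + 1) fun l =>
      (n : ℚ) ^ j * pw d (Sl.toL x) j l - ((pw d z j (l.map X.φ) : ℤ) : ℚ) := fun j hj =>
    (pw_exL hd hnx (FMod.CocZ.cocL X hz ℚ) hxz j hj).congr one_pos fun l _ _ => by
      rw [pw_smul, pw_map (f := fun l => (z l : ℚ)), pw_cast]
  -- spanning
  have hA : ∀ q ∈ Finset.Icc 1 Q, ∃ N : ℕ, N ≠ 0 ∧ ∀ (k : Type) [Field k], (N : k) ≠ 0 →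
      ∀ f : List M → k, CocL (q + 1) f → ExL (q + 1) f ∨ ∃ j ≤ h, ∃ _ : d * j = q, ∃ c : k,
        ExL (q + 1) fun l => f l - c * ((pw d z j (l.map X.φ) : ℤ) : k) := by
    intro q hq
    obtain ⟨hq1, hqQ⟩ := Finset.mem_Icc.1 hq
    by_cases hj : ∃ j, j ≤ h ∧ d * j = q
    · obtain ⟨j, hjh, rfl⟩ := hj
      have hj1 : 1 ≤ j := Nat.one_le_iff_ne_zero.2 fun h0 => by
        rw [h0, mul_zero] at hq1; omega
      obtain ⟨N, hN, H⟩ := X.span_of D55.la1 (m := d * j + 1) (by omega) (by omega)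
        (cocZ_pw X hz j) (fun f hf => by
          have hf' : IsCocycle (Sl.ofL (d * j + 1) f : Cochain M ℚ (d * j)) :=
            isCocycle_iff.2 (hf.congr one_pos fun l hl _ => (Sl.toL_ofL f hl).symm)
          rcases hsp _ _ hf' with h1 | ⟨j', hj', e, c, hc⟩
          · refine ⟨0, ((isCobd_iff hq1).1 h1).congr one_pos fun l hl _ => ?_⟩
            rw [Sl.toL_ofL f hl]; ring
          · have hjj : j' = j := Nat.eq_of_mul_eq_mul_left hd e
            subst hjj
            have hc' := (isCobd_iff hq1).1 hc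
            refine ⟨c / n ^ j', (hc'.add ((hpow j' hj1).smul (c / n ^ j'))).congr one_pos
              fun l hl _ => ?_⟩
            rw [Sl.toL_sub, Sl.toL_smul, Sl.toL_ofL f hl, toL_power x j' hl]
            field_simp
            ring)
      exact ⟨N, hN, fun k _ hk f hf => by
        obtain ⟨c, hc⟩ := H k hk f hf
        exact Or.inr ⟨j, hjh, rfl, c, hc⟩⟩
    · obtain ⟨N, hN, H⟩ := X.span_of D55.la1 (m := q + 1) (by omega) (by omega)
        (z := fun _ => 0) (fun l _ _ => by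
          have : ext (fun _ : List M => (0 : ℤ)) = 0 := lin_ext fun l => by simp
          rw [this]; rfl) (fun f hf => by
          have hf' : IsCocycle (Sl.ofL (q + 1) f : Cochain M ℚ q) :=
            isCocycle_iff.2 (hf.congr one_pos fun l hl _ => (Sl.toL_ofL f hl).symm)
          rcases hsp _ _ hf' with h1 | ⟨j', hj', e, c, hc⟩
          · refine ⟨0, ((isCobd_iff hq1).1 h1).congr one_pos fun l hl _ => ?_⟩
            rw [Sl.toL_ofL f hl]; ring
          · exact absurd ⟨j', hj', e⟩ hj)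
      exact ⟨N, hN, fun k _ hk f hf => by
        obtain ⟨c, hc⟩ := H k hk f hf
        exact Or.inl (hc.congr one_pos fun l _ _ => by simp)⟩
  -- nonvanishing
  have hB : ∀ j ∈ Finset.Icc 1 h, ∃ N : ℕ, N ≠ 0 ∧ ∀ (k : Type) [Field k], (N : k) ≠ 0 →
      ¬ ExL (d * j + 1) fun l => ((pw d z j (l.map X.φ) : ℤ) : k) := by
    intro j hj
    obtain ⟨hj1, hjh⟩ := Finset.mem_Icc.1 hj
    have hdj : d * j ≤ Q := (Nat.mul_le_mul_left d hjh).trans hQdh
    have hdj1 : 1 ≤ d * j := Nat.mul_pos hd hj1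
    refine X.ne_of D55.la3 (m := d * j + 1) (by omega) (by omega) (cocZ_pw X hz j) fun hex => ?_
    refine hne j hjh ((isCobd_iff hdj1).2 ?_)
    refine ((hpow j hj1).add hex).smul (1 / n ^ j) |>.congr one_pos fun l hl _ => ?_
    rw [toL_power x j hl]
    field_simp
    ring
  obtain ⟨N₁, hN₁, H₁⟩ := exists_common (Finset.Icc 1 Q) hA
  obtain ⟨N₂, hN₂, H₂⟩ := exists_common (Finset.Icc 1 h) hB
  refine ⟨N₁ * N₂, mul_ne_zero hN₁ hN₂, fun k _ hk hvan => ?_⟩
  rw [Nat.cast_mul] at hk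
  have K₁ := H₁ k (left_ne_zero_of_mul hk)
  have K₂ := H₂ k (right_ne_zero_of_mul hk)
  set y : Cochain M k d := Sl.ofL (d + 1) fun l => (z (l.map X.φ) : k) with hy
  have hyL : ∀ l : List M, l.length = d + 1 → Sl.toL y l = (z (l.map X.φ) : k) :=
    fun l hl => Sl.toL_ofL (fun l => (z (l.map X.φ) : k)) hl
  have hpy : ∀ j, ∀ l : List M, l.length = d * j + 1 →
      Sl.toL (power y j) l = ((pw d z j (l.map X.φ) : ℤ) : k) := fun j l hl => by
    rw [toL_power y j hl, pw_congr hyL j l hl, pw_map (f := fun l => (z l : k)), pw_cast]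
  refine ⟨y, isCocycle_iff.2 ((FMod.CocZ.cocL X hz k).congr one_pos fun l hl _ => (hyL l hl).symm),
    fun j hj hex => ?_, fun q f hf => ?_⟩
  · rcases Nat.eq_zero_or_pos j with rfl | hj1
    · have hex' : LocZero (fun _ => 1 : Cochain M k 0) := hex
      obtain ⟨x₀⟩ := (inferInstance : Nonempty M)
      obtain ⟨U, hU, hz⟩ := hex' x₀
      exact one_ne_zero (hz (fun _ => x₀) fun _ => mem_of_mem_nhds hU)
    · have hdj1 : 1 ≤ d * j := Nat.mul_pos hd hj1
      exact K₂ j (Finset.mem_Icc.2 ⟨hj1, hj⟩) (((isCobd_iff hdj1).1 hex).congr one_pos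
        fun l hl _ => hpy j l hl)
  · rcases Nat.eq_zero_or_pos q with rfl | hq1
    · right
      obtain ⟨x₀⟩ := (inferInstance : Nonempty M)
      refine ⟨0, Nat.zero_le _, rfl, f fun _ => x₀, ?_⟩
      have e : f - (f fun _ => x₀) • (fun _ => 1 : Cochain M k 0) = 0 := by
        funext σ
        have h1 : σ = fun _ => σ 0 := funext fun i => congrArg σ (Fin.ext (by omega))
        have h2 := const_of_cocycle hf x₀ (σ 0)
        rw [← h1] at h2
        simp only [Pi.sub_apply, Pi.smul_apply, smul_eq_mul, mul_one, Pi.zero_apply, h2, sub_self]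
      change LocZero (f - (f fun _ => x₀) • (fun _ => 1 : Cochain M k 0))
      rw [e]
      exact fun x => ⟨univ, Filter.univ_mem, fun _ _ => rfl⟩
    · rcases Nat.lt_or_ge Q q with hqQ | hqQ
      · exact Or.inl (hvan q (by omega) f hf)
      · rcases K₁ q (Finset.mem_Icc.2 ⟨hq1, hqQ⟩) (Sl.toL f) (isCocycle_iff.1 hf) with
          h1 | ⟨j, hj, e, c, hc⟩
        · exact Or.inl ((isCobd_iff hq1).2 h1)
        · subst e
          refine Or.inr ⟨j, hj, rfl, c, (isCobd_iff hq1).2 (hc.congr one_pos fun l hl _ => ?_)⟩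
          rw [Sl.toL_sub, Sl.toL_smul, hpy j l hl]

end Vale.Agent.P216.D773
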