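import Vale.Agent.P216.D773.Rec

/-!
# P216-D, block [RAT] : a finite model of the cohomology, over all fields at once
-/

open Finsupp Set

namespace Vale.Agent.P216.D773

open Vale.Agent.P216 (Sl.dl)

variable {M : Type} [MetricSpace M]

/-- Lists of diameter `< ε`. -/
def Sml (ε : ℝ) (l : List M) : Prop := ∀ x ∈ l, ∀ y ∈ l, dist x y < ε

theorem Sml.mono {ε ε' : ℝ} {l : List M} (h : Sml ε l) (he : ε ≤ ε') : Sml ε' l :=
  fun x hx y hy => (h x hx y hy).trans_le he

section Alg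

variable {k : Type} [Field k] {α β : Type}

theorem evz_add (f g : List α → k) (c : Cz α) : evz (fun l => f l + g l) c = evz f c + evz g c := by
  have := lin_ext_apply (f := evz fun l => f l + g l) (g := evz f + evz g)
    (fun l => by simp) c
  simpa using this

theorem evz_smul (a : k) (f : List α → k) (c : Cz α) : evz (fun l => a * f l) c = a * evz f c := by
  have := lin_ext_apply (f := evz fun l => a * f l) (g := (AddMonoidHom.mulLeft a).comp (evz f))
    (fun l => by simp) c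
  simpa using this

theorem dl_add (f g : List α → k) (l : List α) :
    Sl.dl (fun l => f l + g l) l = Sl.dl f l + Sl.dl g l := by
  rw [dl_eq, dl_eq, dl_eq, evz_add]

theorem dl_smul (a : k) (f : List α → k) (l : List α) :
    Sl.dl (fun l => a * f l) l = a * Sl.dl f l := by
  rw [dl_eq, dl_eq, evz_smul]

theorem dl_map (f : List β → k) (g : α → β) (l : List α) :
    Sl.dl (fun l => f (l.map g)) l = Sl.dl f (l.map g) := by
  rw [dl_eq, dl_eq, bdl_map, evz_mp]

theorem dl_congr {f g : List α → k} {l : List α}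
    (h : ∀ l', l'.length + 1 = l.length → l'.Sublist l → f l' = g l') :
    Sl.dl f l = Sl.dl g l := by
  rw [dl_eq, dl_eq]
  exact evz_congr (fun l' hl' => h l' hl'.1 hl'.2) (bdl_mem l)

/-- Evaluation along a homotopy. -/
theorem evz_hom (f : List β → k) {D : List α → Cz β} {l : List α} {θ : Cz β}
    {Q : List β → Prop} (hD : D l ∈ Sz Q) (hb : bd (D l) = θ - ext D (bdl l))
    (hf : ∀ w, Q w → Sl.dl f w = 0) :
    evz f θ = Sl.dl (fun l => evz f (D l)) l := by
  have h1 : evz f (bd (D l)) = 0 := by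
    rw [← evz_dl]; exact evz_zero_of hf hD
  rw [hb, map_sub] at h1
  rw [dl_evz, ← sub_eq_zero, h1]

end Alg

theorem isAdm_sml {η : ℝ} (h : 0 ≤ η) : IsAdm (P := M) (fun x => x) (Sml η) η where
  nonneg := h
  sub _ _ hs hl x hx y hy := hl x (hs.subset hx) y (hs.subset hy)
  dist_le _ hl p hp q hq := (hl p hp q hq).le

/-- The comparison of the identity with a fine chain map. -/
theorem hom_id {R : ℝ} {N : ℕ} {ε δ : ℝ}
    (H : ∀ (P : Type) (pos : P → M) (Adm : List P → Prop) (s r : ℝ), IsAdm pos Adm s →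
      r + N * s ≤ R → ∀ θ : List P → Cz M, θ [] = 0 →
      (∀ l, Adm l → l ≠ [] → l.length ≤ N → θ l ∈ Sz (Car pos l r δ l.length)) →
      (∀ l, Adm l → l ≠ [] → l.length ≤ N → bd (θ l) = ext θ (bdl l)) →
      ∃ D : List P → Cz M, D [] = 0 ∧ ∀ l, Adm l → l ≠ [] → l.length ≤ N →
        D l ∈ Sz (Car pos l (r + N * s) ε (l.length + 1)) ∧ bd (D l) = θ l - ext D (bdl l))
    {Adm : List M → Prop} {s μ s' η : ℝ} {φ : M → M} (hμ : ∀ x, dist x (φ x) ≤ μ)
    (hs : 0 ≤ s) (hμ0 : 0 ≤ μ)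
    (hadm : ∀ l, Sml s' l → Adm (l.map φ)) (hη : 0 ≤ η) (hη1 : η ≤ s') (hη2 : η ≤ δ)
    (hR : N * s + μ + N * η ≤ R) {S : List M → Cz M} (hS0 : S [] = single [] 1)
    (hS : ∀ l, Adm l → l ≠ [] → l.length ≤ N →
      S l ∈ Sz (Car (fun x => x) l (N * s) δ l.length) ∧ bd (S l) = ext S (bdl l)) :
    ∃ D : List M → Cz M, ∀ l, Sml η l → l ≠ [] → l.length ≤ N →
      D l ∈ Sz (fun w => w.length = l.length + 1 ∧ Sml ε w) ∧
      bd (D l) = (single l 1 - S (l.map φ)) - ext D (bdl l) := by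
  have hne : ∀ l : List M, l ≠ [] → l.map φ ≠ [] := fun l h e => h (List.map_eq_nil_iff.1 e)
  have hθ1 : ∀ l, Sml η l → l ≠ [] → l.length ≤ N → (single l 1 - S (l.map φ) : Cz M) ∈
      Sz (Car (fun x => x) l (N * s + μ) δ l.length) := fun l hl hne' hn => by
    refine AddSubgroup.sub_mem _ (single_mem (P := Car (fun x => x) l (N * s + μ) δ l.length)
      ⟨rfl, fun y hy => ⟨y, hy, by rw [dist_self]; positivity⟩,
        fun x hx y hy => (hl x hx y hy).trans_le hη2⟩ _) ?_
    have h1 := (hS (l.map φ) (hadm l (hl.mono hη1)) (hne l hne')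
      (by rw [List.length_map]; exact hn)).1
    refine Sz_mono (fun w hw => ⟨by rw [hw.1, List.length_map], fun y hy => ?_, hw.2.2⟩) h1
    obtain ⟨p, hp, h⟩ := hw.2.1 y hy
    obtain ⟨x, hx, rfl⟩ := List.mem_map.1 hp
    refine ⟨x, hx, (dist_triangle x (φ x) y).trans ?_⟩
    have := hμ x
    linarith
  have hθ2 : ∀ l, Sml η l → l ≠ [] → l.length ≤ N → bd (single l 1 - S (l.map φ) : Cz M) =
      ext (fun l => single l 1 - S (l.map φ)) (bdl l) := fun l hl hne' hn => by
    have h2 := (hS (l.map φ) (hadm l (hl.mono hη1)) (hne l hne')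
      (by rw [List.length_map]; exact hn)).2
    rw [map_sub, bd_single, one_smul, h2, bdl_map, ext_mp, ext_sub, ext_single_id]
  obtain ⟨D, -, hD⟩ := H M (fun x => x) (Sml η) η (N * s + μ) (isAdm_sml hη) hR
    (fun l => single l 1 - S (l.map φ)) (by simp [hS0]) hθ1 hθ2
  refine ⟨D, fun l hl hne' hn => ?_⟩
  obtain ⟨h1, h2⟩ := hD l hl hne' hn
  exact ⟨Sz_mono (fun w hw => ⟨hw.1, hw.2.2⟩) h1, h2⟩

/-- **The finite model.** -/
theorem fin_model [CompactSpace M] {R : ℝ} (hR : 0 < R) (C : Ctr M R) (N : ℕ) :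
    ∃ (Adm : List M → Prop) (φ : M → M) (E : List M → Cz M) (s' : ℝ), 0 < s' ∧
      (∀ n, {l | Adm l ∧ l.length = n}.Finite) ∧
      (∀ l l' : List M, l'.Sublist l → Adm l → Adm l') ∧
      (∀ l, Sml s' l → Adm (l.map φ)) ∧
      (∀ l, Adm l → l ≠ [] → l.length ≤ N → E l ∈ Sz fun w => Adm w ∧ w.length = l.length) ∧
      (∀ (k : Type) [Field k] (m : ℕ), 1 ≤ m → m + 1 ≤ N → ∀ (f : List M → k) (ε : ℝ), 0 < ε →
        (∀ l, l.length = m + 1 → Sml ε l → Sl.dl f l = 0) →
        ∃ b : List M → k, (∀ l, Adm l → l.length = m + 1 → Sl.dl b l = 0) ∧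
          ∃ η > 0, ∃ g : List M → k, ∀ l, l.length = m → Sml η l →
            f l - b (l.map φ) = Sl.dl g l) ∧
      (∀ (k : Type) [Field k] (m : ℕ), 1 ≤ m → m + 1 ≤ N → ∀ b : List M → k,
        (∀ l, Adm l → l.length = m + 1 → Sl.dl b l = 0) →
        ((∃ ε > 0, ∃ g : List M → k, ∀ l, l.length = m → Sml ε l →
          b (l.map φ) = Sl.dl g l) ↔
        ∃ a : List M → k, ∀ l, Adm l → l.length = m → evz b (E l) = Sl.dl a l)) ∧
      (∀ l, Adm l → l ≠ [] → l.length ≤ N → bd (E l) = ext E (bdl l)) ∧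
      (∀ (k : Type) [Field k] (m : ℕ), 1 ≤ m → m + 1 ≤ N → ∀ b : List M → k,
        (∀ l, Adm l → l.length = m + 1 → Sl.dl b l = 0) →
        ∃ ε > 0, ∃ g : List M → k, ∀ l, l.length = m → Sml ε l →
          b (l.map φ) - evz b (E (l.map φ)) = Sl.dl g l) := by
  classical
  set s : ℝ := R / (2 * (N + 2)) with hsdef
  have hs : 0 < s := by positivity
  have hRs : R = 2 * N * s + 4 * s := by rw [hsdef]; field_simp; ring
  set s' : ℝ := s / 4 with hs'def
  have hs' : 0 < s' := by positivity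
  obtain ⟨F, hF⟩ := (isCompact_univ : IsCompact (univ : Set M)).finite_cover_balls
    (e := s / 4) (by positivity)
  obtain ⟨-, hFfin, hFcov⟩ := hF
  have hnet : ∀ x : M, ∃ y ∈ F, dist x y ≤ s / 4 := fun x => by
    obtain ⟨y, hy, h⟩ := mem_iUnion₂.1 (hFcov (mem_univ x))
    exact ⟨y, hy, (Metric.mem_ball.1 h).le⟩
  choose φ hφF hφ using hnet
  let Adm : List M → Prop := fun l => (∀ x ∈ l, x ∈ F) ∧ ∀ x ∈ l, ∀ y ∈ l, dist x y < s
  have hA : IsAdm (P := M) (fun x => x) Adm s :=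
    ⟨hs.le, fun l l' h hl => ⟨fun x hx => hl.1 x (h.subset hx),
      fun x hx y hy => hl.2 x (h.subset hx) y (h.subset hy)⟩,
      fun l hl p hp q hq => (hl.2 p hp q hq).le⟩
  have hadm : ∀ l, Sml s' l → Adm (l.map φ) := fun l hl => by
    refine ⟨fun x hx => ?_, fun x hx y hy => ?_⟩
    · obtain ⟨x', -, rfl⟩ := List.mem_map.1 hx
      exact hφF x'
    · obtain ⟨x', hx', rfl⟩ := List.mem_map.1 hx
      obtain ⟨y', hy', rfl⟩ := List.mem_map.1 hy
      have h1 := hl x' hx' y' hy'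
      have h2 := hφ x'
      have h3 := hφ y'
      have h4 := dist_triangle4 (φ x') x' y' (φ y')
      rw [dist_comm (φ x') x'] at h4
      linarith
  obtain ⟨δ₀, hδ₀, hδ₀', H₀⟩ := exists_hom C N s' hs'
  have hNR : (N : ℝ) * s ≤ R := by nlinarith [mul_nonneg (Nat.cast_nonneg (α := ℝ) N) hs.le]
  obtain ⟨S₀, hS₀0, hS₀⟩ := exists_sd C hA N hNR δ₀ hδ₀
  have hNN : ∀ η ≤ s', (N : ℝ) * s + s / 4 + N * η ≤ R := fun η hη => by
    have := mul_le_mul_of_nonneg_left hη (Nat.cast_nonneg (α := ℝ) N)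
    nlinarith [mul_nonneg (Nat.cast_nonneg (α := ℝ) N) hs.le]
  refine ⟨Adm, φ, fun l => mp φ (S₀ l), s', hs', fun n => ?_, hA.sub, hadm, fun l hl hne hn => ?_,
    fun k _ m hm hmN f ε hε hf => ?_, fun k _ m hm hmN b hb => ⟨?_, ?_⟩, fun l hl hne hn => ?_,
    fun k _ m hm hmN b hb => ?_⟩
  · have := hFfin.to_subtype
    refine ((List.finite_length_eq F n).image (List.map Subtype.val)).subset ?_
    rintro l ⟨hl, hn⟩
    have hl' : ∀ x ∈ l, x ∈ F := hl.1
    lift l to List F using hl'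
    exact ⟨l, by simpa using hn, rfl⟩
  · refine map_mem (F := mp φ) (fun w hw => ?_) (hS₀ l hl hne hn).1
    rw [mp_single]
    exact single_mem (P := fun w => Adm w ∧ w.length = l.length)
      ⟨hadm w fun x hx y hy => (hw.2.2 x hx y hy).trans_le hδ₀', by
        rw [List.length_map, hw.1]⟩ _
  · -- (A)
    obtain ⟨δ, hδ, hδε, H⟩ := exists_hom C N ε hε
    obtain ⟨S, hS0, hS⟩ := exists_sd C hA N hNR δ hδ
    have hηpos : 0 < min s' δ := lt_min hs' hδ
    obtain ⟨D, hD⟩ := hom_id H hφ hs.le (by positivity) hadm hηpos.le (min_le_left s' δ)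
      (min_le_right s' δ) (hNN _ (min_le_left _ _)) hS0 hS
    refine ⟨fun l => evz f (S l), fun l hl hlm => ?_, min s' δ, hηpos, fun l => evz f (D l),
      fun l hlm hl => ?_⟩
    · have hne : l ≠ [] := fun h => by rw [h] at hlm; simp at hlm
      obtain ⟨h1, h2⟩ := hS l hl hne (by omega)
      rw [dl_evz, ← h2, ← evz_dl]
      refine evz_zero_of (fun w hw => ?_) h1
      exact hf w (by rw [hw.1, hlm]) fun x hx y hy => (hw.2.2 x hx y hy).trans_le hδε
    · have hne : l ≠ [] := fun h => by rw [h] at hlm; simp at hlm; omega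
      obtain ⟨h1, h2⟩ := hD l hl hne (by omega)
      rw [← evz_hom f h1 h2 fun w hw => hf w (by rw [hw.1, hlm]) hw.2, map_sub, evz_single,
        Int.cast_one, one_mul]
  · -- (B), from germs to the model
    rintro ⟨ε, hε, g, hg⟩
    have hε1 : 0 < min ε δ₀ := lt_min hε hδ₀
    obtain ⟨S, hS0, hS⟩ := exists_sd C hA N hNR _ hε1
    obtain ⟨D, -, hD⟩ := H₀ M (fun x => x) Adm s (N * s) hA
      (by nlinarith [mul_nonneg (Nat.cast_nonneg (α := ℝ) N) hs.le])
      (fun l => S₀ l - S l) (by simp [hS₀0, hS0]) (fun l hl hne hn => by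
        refine AddSubgroup.sub_mem _ (hS₀ l hl hne hn).1 (Sz_mono (fun w hw => ?_)
          (hS l hl hne hn).1)
        exact hw.mono (fun _ h => h) le_rfl (min_le_right _ _)) (fun l hl hne hn => by
        rw [map_sub, (hS₀ l hl hne hn).2, (hS l hl hne hn).2, ext_sub])
    refine ⟨fun l => evz (fun l => b (l.map φ)) (D l) + evz g (S l), fun l hl hlm => ?_⟩
    have hne : l ≠ [] := fun h => by rw [h] at hlm; simp at hlm; omega
    obtain ⟨h1, h2⟩ := hD l hl hne (by omega)
    have h3 := evz_hom (fun l => b (l.map φ)) h1 h2 fun w hw => by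
      rw [dl_map]
      exact hb _ (hadm w hw.2.2) (by rw [List.length_map, hw.1, hlm])
    rw [dl_add, ← h3, dl_evz, ← (hS l hl hne (by omega)).2, ← evz_dl]
    have h4 : evz (Sl.dl g) (S l) = evz (fun l => b (l.map φ)) (S l) :=
      evz_congr (fun w hw => (hg w (by rw [hw.1, hlm]) fun x hx y hy =>
        (hw.2.2 x hx y hy).trans_le (min_le_left _ _)).symm) (hS l hl hne (by omega)).1
    rw [h4, map_sub, evz_mp]
    ring
  · -- (B), from the model to germs
    rintro ⟨a, ha⟩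
    have hηpos : 0 < min s' δ₀ := lt_min hs' hδ₀
    obtain ⟨D, hD⟩ := hom_id H₀ hφ hs.le (by positivity) hadm hηpos.le (min_le_left s' δ₀)
      (min_le_right s' δ₀) (hNN _ (min_le_left _ _)) hS₀0 hS₀
    refine ⟨min s' δ₀, hηpos, fun l => evz (fun l => b (l.map φ)) (D l) + a (l.map φ),
      fun l hlm hl => ?_⟩
    have hne : l ≠ [] := fun h => by rw [h] at hlm; simp at hlm; omega
    obtain ⟨h1, h2⟩ := hD l hl hne (by omega)
    have h3 := evz_hom (fun l => b (l.map φ)) h1 h2 fun w hw => by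
      rw [dl_map]
      exact hb _ (hadm w hw.2) (by rw [List.length_map, hw.1, hlm])
    have h4 := ha (l.map φ) (hadm l (hl.mono (min_le_left _ _))) (by rw [List.length_map, hlm])
    rw [evz_mp] at h4
    rw [dl_add, ← h3, dl_map, ← h4, map_sub, evz_single]
    simp
  · rw [bd_mp, (hS₀ l hl hne hn).2]
    have e := lin_ext_apply (f := (mp φ).comp (ext S₀)) (g := ext fun l => mp φ (S₀ l))
      (fun l => by simp) (bdl l)
    simpa using e
  · have hηpos : 0 < min s' δ₀ := lt_min hs' hδ₀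
    obtain ⟨D, hD⟩ := hom_id H₀ hφ hs.le (by positivity) hadm hηpos.le (min_le_left s' δ₀)
      (min_le_right s' δ₀) (hNN _ (min_le_left _ _)) hS₀0 hS₀
    refine ⟨min s' δ₀, hηpos, fun l => evz (fun l => b (l.map φ)) (D l), fun l hlm hl => ?_⟩
    have hne : l ≠ [] := fun h => by rw [h] at hlm; simp at hlm; omega
    obtain ⟨h1, h2⟩ := hD l hl hne (by omega)
    rw [← evz_hom (fun l => b (l.map φ)) h1 h2 fun w hw => by
      rw [dl_map]
      exact hb _ (hadm w hw.2) (by rw [List.length_map, hw.1, hlm]), map_sub, evz_single,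
      evz_mp, Int.cast_one, one_mul]

end Vale.Agent.P216.D773
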