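import Vale.Agent.P216.D773.Fill

/-!
# P216-D, block [RAT] : fine chain maps and homotopies between them (acyclic carriers)
-/

open Finsupp Set

namespace Vale.Agent.P216.D773

variable {M : Type} [MetricSpace M]

/-- Lists of length `m`, with entries `r`-close to an entry of `l`, of diameter `< ε`. -/
def Car {P : Type} (pos : P → M) (l : List P) (r ε : ℝ) (m : ℕ) (w : List M) : Prop :=
  w.length = m ∧ (∀ y ∈ w, ∃ p ∈ l, dist (pos p) y ≤ r) ∧ ∀ x ∈ w, ∀ y ∈ w, dist x y < ε

section

variable {P : Type} {pos : P → M}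

theorem Car.mono {l l' : List P} {r r' ε ε' : ℝ} {m : ℕ} {w : List M} (h : Car pos l r ε m w)
    (hl : ∀ p ∈ l, p ∈ l') (hr : r ≤ r') (hε : ε ≤ ε') : Car pos l' r' ε' m w :=
  ⟨h.1, fun y hy => by
    obtain ⟨p, hp, h1⟩ := h.2.1 y hy
    exact ⟨p, hl p hp, h1.trans hr⟩, fun x hx y hy => (h.2.2 x hx y hy).trans_le hε⟩

theorem Car.fn {l : List P} {a : P} {r s ε : ℝ} {m : ℕ} {w : List M}
    (hs : ∀ p ∈ l, dist (pos a) (pos p) ≤ s) (h : Car pos l r ε m w) :
    Fn (pos a) (r + s) ε m w :=
  ⟨h.1, fun y hy => by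
    obtain ⟨p, hp, h1⟩ := h.2.1 y hy
    have h2 := dist_triangle (pos a) (pos p) y
    have h3 := hs p hp
    linarith, h.2.2⟩

theorem Fn.car {l : List P} {a : P} {r ε : ℝ} {m : ℕ} {w : List M} (ha : a ∈ l)
    (h : Fn (pos a) r ε m w) : Car pos l r ε m w :=
  ⟨h.1, fun y hy => ⟨a, ha, h.2.1 y hy⟩, h.2.2⟩

end

/-- Admissible lists. -/
structure IsAdm {P : Type} (pos : P → M) (Adm : List P → Prop) (s : ℝ) : Prop where
  nonneg : 0 ≤ s
  sub : ∀ l l' : List P, l'.Sublist l → Adm l → Adm l'
  dist_le : ∀ l, Adm l → ∀ p ∈ l, ∀ q ∈ l, dist (pos p) (pos q) ≤ s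

theorem bdl_mem_adm {P : Type} {pos : P → M} {Adm : List P → Prop} {s : ℝ}
    (hA : IsAdm pos Adm s) {l : List P} (hl : Adm l) :
    bdl l ∈ Sz fun l' => l'.length + 1 = l.length ∧ l'.Sublist l ∧ Adm l' :=
  Sz_mono (fun l' h => ⟨h.1, h.2, hA.sub l l' h.2 hl⟩) (bdl_mem l)

/-- **Homotopies.** -/
theorem exists_hom {R : ℝ} (C : Ctr M R) : ∀ (N : ℕ), ∀ ε > 0, ∃ δ, 0 < δ ∧ δ ≤ ε ∧
    ∀ (P : Type) (pos : P → M) (Adm : List P → Prop) (s r : ℝ), IsAdm pos Adm s →
    r + N * s ≤ R → ∀ θ : List P → Cz M, θ [] = 0 →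
    (∀ l, Adm l → l ≠ [] → l.length ≤ N → θ l ∈ Sz (Car pos l r δ l.length)) →
    (∀ l, Adm l → l ≠ [] → l.length ≤ N → bd (θ l) = ext θ (bdl l)) →
    ∃ D : List P → Cz M, D [] = 0 ∧ ∀ l, Adm l → l ≠ [] → l.length ≤ N →
      D l ∈ Sz (Car pos l (r + N * s) ε (l.length + 1)) ∧ bd (D l) = θ l - ext D (bdl l) := by
  intro N
  induction N with
  | zero =>
    intro ε hε
    refine ⟨ε, hε, le_rfl, fun P pos Adm s r hA hR θ h0 h1 h2 => ⟨fun _ => 0, rfl,
      fun l _ hl hl' => absurd (List.length_eq_zero_iff.1 (by omega)) hl⟩⟩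
  | succ N ih =>
    intro ε hε
    obtain ⟨δ₁, hδ₁, hδε, hfill⟩ := fill C hε
    obtain ⟨δ, hδ, hδ1, H⟩ := ih δ₁ hδ₁
    refine ⟨δ, hδ, hδ1.trans hδε, fun P pos Adm s r hA hR θ h0 h1 h2 => ?_⟩
    have hs := hA.nonneg
    have hR' : r + (N : ℝ) * s + s ≤ R := by
      have : ((N + 1 : ℕ) : ℝ) * s = N * s + s := by push_cast; ring
      linarith
    obtain ⟨D, hD0, hD⟩ := H P pos Adm s r hA (by linarith) θ h0
      (fun l a b c => h1 l a b (by omega)) (fun l a b c => h2 l a b (by omega))
    -- the equation for `D` also holds at the empty list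
    have hDeq : ∀ l, Adm l → l.length ≤ N → bd (D l) = θ l - ext D (bdl l) := fun l hl hn => by
      by_cases h : l = []
      · subst h
        rw [hD0, map_zero, h0, bdl_nil, map_zero, sub_zero]
      · exact (hD l hl h hn).2
    have key : ∀ l, Adm l → l.length = N + 1 → ∃ w ∈ Sz (Car pos l (r + (N + 1 : ℕ) * s) ε
        (l.length + 1)), bd w = θ l - ext D (bdl l) := by
      intro l hl hn
      have hne : l ≠ [] := fun h => by rw [h] at hn; simp at hn
      obtain ⟨a, t, rfl⟩ := List.exists_cons_of_ne_nil hne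
      have ha : a ∈ a :: t := List.mem_cons_self
      have hmem := bdl_mem_adm hA hl
      have hcyc : bd (θ (a :: t) - ext D (bdl (a :: t))) = 0 := by
        rw [map_sub, h2 _ hl hne (by omega), bd_ext]
        have e : ext (fun l => bd (D l)) (bdl (a :: t)) =
            ext (fun l => θ l - ext D (bdl l)) (bdl (a :: t)) :=
          ext_congr (fun l' hl' => hDeq l' hl'.2.2 (by omega)) hmem
        rw [e, ext_sub, ← ext_ext, ext_bdl, bd_bdl, map_zero, sub_zero, sub_self]
      have hsup : θ (a :: t) - ext D (bdl (a :: t)) ∈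
          Sz (Fn (pos a) (r + (N : ℝ) * s + s) δ₁ (N + 1)) := by
        refine AddSubgroup.sub_mem _ ?_ ?_
        · refine Sz_mono (fun w hw => ?_) (h1 _ hl hne (by omega))
          have hw' : Car pos (a :: t) (r + (N : ℝ) * s) δ₁ (a :: t).length w :=
            hw.mono (fun _ h => h) (by nlinarith [mul_nonneg (Nat.cast_nonneg (α := ℝ) N) hs]) hδ1
          have := hw'.fn (a := a) (s := s) fun p hp => hA.dist_le _ hl _ ha _ hp
          rwa [hn] at this
        · refine map_mem (F := ext D) (fun l' hl' => ?_) hmem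
          rw [ext_single, one_smul]
          by_cases h : l' = []
          · rw [h, hD0]; exact AddSubgroup.zero_mem _
          · refine Sz_mono (fun w hw => ?_) (hD l' hl'.2.2 h (by omega)).1
            have := hw.fn (a := a) (s := s) fun p hp =>
              hA.dist_le _ hl _ ha _ (hl'.2.1.subset hp)
            rwa [show l'.length + 1 = N + 1 by omega] at this
      obtain ⟨w, hw, hbw⟩ := hfill (pos a) _ hR' N _ hsup hcyc
      refine ⟨w, Sz_mono (fun v hv => ?_) hw, hbw⟩
      have := Fn.car (l := a :: t) ha hv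
      rw [show (a :: t).length + 1 = N + 2 by omega]
      refine this.mono (fun _ h => h) (le_of_eq ?_) le_rfl
      push_cast; ring
    classical
    let D' : List P → Cz M := fun l => if h : Adm l ∧ l.length = N + 1 then
      (key l h.1 h.2).choose else D l
    have hD'1 : ∀ l, l.length ≤ N → D' l = D l := fun l hl => dif_neg fun h => by omega
    have hext : ∀ l, l.length ≤ N + 1 → ext D' (bdl l) = ext D (bdl l) := fun l hl =>
      ext_congr (fun l' hl' => hD'1 l' (by omega)) (bdl_mem l)
    refine ⟨D', by rw [hD'1 [] (by simp), hD0], fun l hl hne hn => ?_⟩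
    rw [hext l hn]
    by_cases h : l.length = N + 1
    · have e : D' l = (key l hl h).choose := dif_pos ⟨hl, h⟩
      rw [e]
      exact (key l hl h).choose_spec
    · rw [hD'1 l (by omega)]
      obtain ⟨h3, h4⟩ := hD l hl hne (by omega)
      refine ⟨Sz_mono (fun w hw => ?_) h3, h4⟩
      refine hw.mono (fun _ h => h) ?_ hδε
      have : ((N + 1 : ℕ) : ℝ) * s = N * s + s := by push_cast; ring
      linarith

/-- **Fine chain maps.** -/
theorem exists_sd {R : ℝ} (C : Ctr M R) {P : Type} {pos : P → M} {Adm : List P → Prop} {s : ℝ}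
    (hA : IsAdm pos Adm s) : ∀ (N : ℕ), N * s ≤ R → ∀ ε > 0,
    ∃ S : List P → Cz M, S [] = single [] 1 ∧ ∀ l, Adm l → l ≠ [] → l.length ≤ N →
      S l ∈ Sz (Car pos l (N * s) ε l.length) ∧ bd (S l) = ext S (bdl l) := by
  have hs := hA.nonneg
  intro N
  induction N with
  | zero =>
    intro _ ε hε
    exact ⟨fun _ => single [] 1, rfl,
      fun l _ hl hl' => absurd (List.length_eq_zero_iff.1 (by omega)) hl⟩
  | succ N ih =>
    intro hR ε hε
    have hcast : ((N + 1 : ℕ) : ℝ) * s = N * s + s := by push_cast; ring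
    obtain ⟨δ, hδ, hδε, hfill⟩ := fill C hε
    obtain ⟨S, hS0, hS⟩ := ih (by linarith) δ hδ
    have hSeq : ∀ l, Adm l → l.length ≤ N → l ≠ [] → bd (S l) = ext S (bdl l) :=
      fun l hl hn h => (hS l hl h hn).2
    have key : ∀ l, Adm l → l.length = N + 1 → ∃ w ∈ Sz (Car pos l ((N + 1 : ℕ) * s) ε
        l.length), bd w = ext S (bdl l) := by
      intro l hl hn
      have hne : l ≠ [] := fun h => by rw [h] at hn; simp at hn
      obtain ⟨a, t, rfl⟩ := List.exists_cons_of_ne_nil hne
      have ha : a ∈ a :: t := List.mem_cons_self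
      rcases Nat.eq_zero_or_pos N with hN | hN
      · have ht : t = [] := List.length_eq_zero_iff.1 (by
          rw [List.length_cons] at hn; omega)
        subst ht
        have hcar : Car pos [a] (((N + 1 : ℕ) : ℝ) * s) ε [a].length [pos a] := by
          refine ⟨rfl, fun y hy => ⟨a, List.mem_singleton.2 rfl, ?_⟩, fun x hx y hy => ?_⟩
          · rw [List.mem_singleton.1 hy, dist_self]
            positivity
          · rw [List.mem_singleton.1 hx, List.mem_singleton.1 hy, dist_self]; exact hε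
        refine ⟨single [pos a] 1, single_mem hcar _, ?_⟩
        simp [bdl_cons, bdl_nil, hS0]
      · have hmem := bdl_mem_adm hA hl
        have hne' : ∀ l' : List P, l'.length + 1 = (a :: t).length → l' ≠ [] := fun l' h e => by
          rw [e, List.length_nil] at h; omega
        have hcyc : bd (ext S (bdl (a :: t))) = 0 := by
          rw [bd_ext]
          have e : ext (fun l => bd (S l)) (bdl (a :: t)) =
              ext (fun l => ext S (bdl l)) (bdl (a :: t)) :=
            ext_congr (fun l' hl' => hSeq l' hl'.2.2 (by omega) (hne' l' hl'.1)) hmem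
          rw [e, ← ext_ext, ext_bdl, bd_bdl, map_zero]
        obtain ⟨n, rfl⟩ : ∃ n, N = n + 1 := ⟨N - 1, by omega⟩
        have hsup : ext S (bdl (a :: t)) ∈
            Sz (Fn (pos a) (((n + 1 : ℕ) : ℝ) * s + s) δ (n + 1)) := by
          refine map_mem (F := ext S) (fun l' hl' => ?_) hmem
          rw [ext_single, one_smul]
          refine Sz_mono (fun w hw => ?_) (hS l' hl'.2.2 (hne' l' hl'.1) (by omega)).1
          have := hw.fn (a := a) (s := s) fun p hp =>
            hA.dist_le _ hl _ ha _ (hl'.2.1.subset hp)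
          rwa [show l'.length = n + 1 by omega] at this
        obtain ⟨w, hw, hbw⟩ := hfill (pos a) _ (by linarith) n _ hsup hcyc
        refine ⟨w, Sz_mono (fun v hv => ?_) hw, hbw⟩
        have := Fn.car (l := a :: t) ha hv
        rw [hn]
        exact this.mono (fun _ h => h) (le_of_eq hcast.symm) le_rfl
    classical
    let S' : List P → Cz M := fun l => if h : Adm l ∧ l.length = N + 1 then
      (key l h.1 h.2).choose else S l
    have hS'1 : ∀ l, l.length ≤ N → S' l = S l := fun l hl => dif_neg fun h => by omega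
    have hext : ∀ l, l.length ≤ N + 1 → ext S' (bdl l) = ext S (bdl l) := fun l hl =>
      ext_congr (fun l' hl' => hS'1 l' (by omega)) (bdl_mem l)
    refine ⟨S', by rw [hS'1 [] (by simp), hS0], fun l hl hne hn => ?_⟩
    rw [hext l hn]
    by_cases h : l.length = N + 1
    · have e : S' l = (key l hl h).choose := dif_pos ⟨hl, h⟩
      rw [e]
      exact (key l hl h).choose_spec
    · rw [hS'1 l (by omega)]
      obtain ⟨h3, h4⟩ := hS l hl hne (by omega)
      refine ⟨Sz_mono (fun w hw => ?_) h3, h4⟩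
      exact hw.mono (fun _ h => h) (by linarith) hδε

end Vale.Agent.P216.D773
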