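import Vale.Agent.P216.D773.Model
import Vale.Agent.P216.D773.LaDefs

/-!
# P216-D, block [RAT] : transfer of exactness from `ℚ` to the fields `k` with `N ≠ 0`
-/

open Finsupp Set Matrix

namespace Vale.Agent.P216.D773

open Vale.Agent.P216 (Sl.dl)

section

variable {α : Type} {k : Type} [Field k]

/-- The lists of length `m` in `A`. -/
abbrev Ix (A : List α → Prop) (m : ℕ) : Type := {l : List α // A l ∧ l.length = m}

open Classical in
/-- Extension of a function on `Ix A m` by zero. -/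
noncomputable def xt {A : List α → Prop} {m : ℕ} (a : Ix A m → k) (l : List α) : k :=
  if h : A l ∧ l.length = m then a ⟨l, h⟩ else 0

theorem xt_of {A : List α → Prop} {m : ℕ} (a : Ix A m → k) {l : List α}
    (h : A l ∧ l.length = m) : xt a l = a ⟨l, h⟩ := dif_pos h

theorem evz_sum {A : List α → Prop} {m : ℕ} [Fintype (Ix A m)] (f : List α → k) {z : Cz α}
    (hz : z ∈ Sz fun l => A l ∧ l.length = m) :
    evz f z = ∑ i : Ix A m, ((z i.1 : ℤ) : k) * f i.1 := by
  classical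
  have e1 : evz f z = ∑ l ∈ z.support, ((z l : ℤ) : k) * f l := by
    rw [evz, ext, Finsupp.liftAddHom_apply, Finsupp.sum]
    refine Finset.sum_congr rfl fun l _ => ?_
    change (z l) • f l = _
    rw [zsmul_eq_mul]
  rw [e1]
  symm
  refine Finset.sum_bij_ne_zero (fun i _ _ => i.1) (fun i _ h => ?_) (fun i _ _ j _ _ h =>
    Subtype.ext h) (fun l hl h => ?_) (fun _ _ _ => rfl)
  · rw [Finsupp.mem_support_iff]
    intro h0
    exact h (by rw [h0, Int.cast_zero, zero_mul])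
  · exact ⟨⟨l, hz l (Finsupp.mem_support_iff.1 hl)⟩, Finset.mem_univ _, h, rfl⟩

/-- The matrix of an operator on lists. -/
def mat {A : List α → Prop} (D : List α → Cz α) (m m' : ℕ) : Matrix (Ix A m) (Ix A m') ℤ :=
  fun i j => D i.1 j.1

theorem act_mat {A : List α → Prop} {D : List α → Cz α} {m m' : ℕ} [Fintype (Ix A m')]
    (hD : ∀ l, A l → l.length = m → D l ∈ Sz fun l => A l ∧ l.length = m') (f : List α → k)
    (b : Ix A m' → k) (hb : ∀ i : Ix A m', b i = f i.1) (i : Ix A m) :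
    act k (mat D m m' : Matrix (Ix A m) (Ix A m') ℤ) b i = evz f (D i.1) := by
  rw [evz_sum f (hD i.1 i.2.1 i.2.2)]
  unfold act mat
  rw [Matrix.mulVec, dotProduct]
  exact Finset.sum_congr rfl fun j _ => by rw [hb j]; rfl

/-- Integer valued functions. -/
theorem evz_cast (g : List α → ℤ) (c : Cz α) :
    evz (fun l => (g l : k)) c = ((ext g c : ℤ) : k) := by
  have := lin_ext_apply (f := evz fun l => (g l : k))
    (g := (Int.castAddHom k).comp (ext g)) (fun l => by simp) c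
  simpa using this

theorem dl_cast (g : List α → ℤ) (l : List α) :
    Sl.dl (fun l => (g l : k)) l = ((ext g (bdl l) : ℤ) : k) := by
  rw [dl_eq, evz_cast]

end

variable {M : Type} [MetricSpace M]

/-- `f` (on lists of length `m`) is a cocycle near the diagonal. -/
def CocL {k : Type} [Field k] (m : ℕ) (f : List M → k) : Prop :=
  ∃ ε > 0, ∀ l : List M, l.length = m + 1 → Sml ε l → Sl.dl f l = 0

/-- `f` (on lists of length `m`) is a coboundary near the diagonal. -/
def ExL {k : Type} [Field k] (m : ℕ) (f : List M → k) : Prop :=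
  ∃ ε > 0, ∃ g : List M → k, ∀ l : List M, l.length = m → Sml ε l → f l = Sl.dl g l

theorem ExL.add {k : Type} [Field k] {m : ℕ} {f g : List M → k} (hf : ExL m f) (hg : ExL m g) :
    ExL m fun l => f l + g l := by
  obtain ⟨ε, hε, a, ha⟩ := hf
  obtain ⟨ε', hε', a', ha'⟩ := hg
  refine ⟨min ε ε', lt_min hε hε', fun l => a l + a' l, fun l hl hs => ?_⟩
  change f l + g l = _
  rw [dl_add, ha l hl (hs.mono (min_le_left _ _)), ha' l hl (hs.mono (min_le_right _ _))]

theorem ExL.smul {k : Type} [Field k] {m : ℕ} {f : List M → k} (hf : ExL m f) (c : k) :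
    ExL m fun l => c * f l := by
  obtain ⟨ε, hε, a, ha⟩ := hf
  exact ⟨ε, hε, fun l => c * a l, fun l hl hs => by
    change c * f l = _
    rw [dl_smul, ha l hl hs]⟩

theorem ExL.congr {k : Type} [Field k] {m : ℕ} {f g : List M → k} (hf : ExL m f)
    {ε : ℝ} (hε : 0 < ε) (h : ∀ l : List M, l.length = m → Sml ε l → f l = g l) : ExL m g := by
  obtain ⟨ε', hε', a, ha⟩ := hf
  exact ⟨min ε ε', lt_min hε hε', a, fun l hl hs => by
    rw [← h l hl (hs.mono (min_le_left _ _)), ha l hl (hs.mono (min_le_right _ _))]⟩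

/-- A finite model of the cohomology of `M` in degrees `< N - 1` (lists of length `< N`). -/
structure FMod (M : Type) [MetricSpace M] (N : ℕ) where
  Adm : List M → Prop
  φ : M → M
  E : List M → Cz M
  s : ℝ
  s_pos : 0 < s
  fin : ∀ n, {l | Adm l ∧ l.length = n}.Finite
  sub : ∀ l l' : List M, l'.Sublist l → Adm l → Adm l'
  adm : ∀ l, Sml s l → Adm (l.map φ)
  memE : ∀ l, Adm l → l ≠ [] → l.length ≤ N → E l ∈ Sz fun w => Adm w ∧ w.length = l.length
  repr : ∀ (k : Type) [Field k] (m : ℕ), 1 ≤ m → m + 1 ≤ N → ∀ (f : List M → k) (ε : ℝ), 0 < ε →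
        (∀ l, l.length = m + 1 → Sml ε l → Sl.dl f l = 0) →
        ∃ b : List M → k, (∀ l, Adm l → l.length = m + 1 → Sl.dl b l = 0) ∧
          ∃ η > 0, ∃ g : List M → k, ∀ l, l.length = m → Sml η l →
            f l - b (l.map φ) = Sl.dl g l
  exact_iff : ∀ (k : Type) [Field k] (m : ℕ), 1 ≤ m → m + 1 ≤ N → ∀ b : List M → k,
        (∀ l, Adm l → l.length = m + 1 → Sl.dl b l = 0) →
        ((∃ ε > 0, ∃ g : List M → k, ∀ l, l.length = m → Sml ε l →
          b (l.map φ) = Sl.dl g l) ↔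
        ∃ a : List M → k, ∀ l, Adm l → l.length = m → evz b (E l) = Sl.dl a l)
  bdE : ∀ l, Adm l → l ≠ [] → l.length ≤ N → bd (E l) = ext E (bdl l)
  homE : ∀ (k : Type) [Field k] (m : ℕ), 1 ≤ m → m + 1 ≤ N → ∀ b : List M → k,
        (∀ l, Adm l → l.length = m + 1 → Sl.dl b l = 0) →
        ∃ ε > 0, ∃ g : List M → k, ∀ l, l.length = m → Sml ε l →
          b (l.map φ) - evz b (E (l.map φ)) = Sl.dl g l

theorem exists_fMod [CompactSpace M] {R : ℝ} (hR : 0 < R) (C : Ctr M R) (N : ℕ) :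
    Nonempty (FMod M N) := by
  obtain ⟨Adm, φ, E, s, h1, h2, h3, h4, h5, h6, h7, h8, h9⟩ := fin_model hR C N
  exact ⟨⟨Adm, φ, E, s, h1, h2, h3, h4, h5, h6, h7, h8, h9⟩⟩

namespace FMod

variable {N : ℕ} (X : FMod M N)

/-- Integral cocycles of the model. -/
def CocZ (m : ℕ) (z : List M → ℤ) : Prop := ∀ l, X.Adm l → l.length = m + 1 → ext z (bdl l) = 0

noncomputable instance (n : ℕ) : Fintype (Ix X.Adm n) := (X.fin n).fintype

theorem bdl_mem (l : List M) (hl : X.Adm l) {m : ℕ} (h : l.length = m + 1) :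
    bdl l ∈ Sz fun w => X.Adm w ∧ w.length = m :=
  Sz_mono (fun w hw => ⟨X.sub _ _ hw.2 hl, by omega⟩) (D773.bdl_mem l)

theorem CocZ.dl_eq {m : ℕ} {z : List M → ℤ} (h : X.CocZ m z) (k : Type) [Field k] (l : List M)
    (hl : X.Adm l) (hm : l.length = m + 1) : Sl.dl (fun l => (z l : k)) l = 0 := by
  rw [dl_cast, h l hl hm, Int.cast_zero]

theorem CocZ.cocL {m : ℕ} {z : List M → ℤ} (h : X.CocZ m z) (k : Type) [Field k] :
    CocL m fun l => (z (l.map X.φ) : k) := by
  refine ⟨X.s, X.s_pos, fun l hl hs => ?_⟩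
  rw [dl_map (fun l => (z l : k)) X.φ l]
  exact CocZ.dl_eq X h k _ (X.adm l hs) (by rw [List.length_map, hl])

/-- Exactness in the model. -/
theorem ex_iff {k : Type} [Field k] {m : ℕ} (hm : 1 ≤ m) (hN : m + 1 ≤ N) {b : List M → k}
    (hb : ∀ l, X.Adm l → l.length = m + 1 → Sl.dl b l = 0) :
    ExL m (fun l => b (l.map X.φ)) ↔ ∃ a : Ix X.Adm (m - 1) → k,
      ∀ i : Ix X.Adm m, evz b (X.E i.1) = act k (mat bdl m (m - 1)) a i := by
  have hbd : ∀ l, X.Adm l → l.length = m → bdl l ∈ Sz fun w => X.Adm w ∧ w.length = m - 1 :=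
    fun l hl h => X.bdl_mem l hl (by omega)
  refine (X.exact_iff k m hm hN b hb).trans ⟨fun ⟨a, ha⟩ => ⟨fun i => a i.1, fun i => ?_⟩,
    fun ⟨a, ha⟩ => ⟨xt a, fun l hl h => ?_⟩⟩
  · rw [act_mat hbd a _ (fun _ => rfl) i, ← dl_eq]
    exact ha i.1 i.2.1 i.2.2
  · rw [ha ⟨l, hl, h⟩, act_mat hbd (xt a) _ (fun j => (xt_of a j.2).symm), ← dl_eq]

/-- **Transfer of spanning.** -/
theorem span_of (la1 : LA1) {m : ℕ} (hm : 1 ≤ m) (hN : m + 1 ≤ N) {z : List M → ℤ}
    (hz : X.CocZ m z)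
    (h : ∀ f : List M → ℚ, CocL m f → ∃ c : ℚ, ExL m fun l => f l - c * (z (l.map X.φ) : ℚ)) :
    ∃ N₀ : ℕ, N₀ ≠ 0 ∧ ∀ (k : Type) [Field k], (N₀ : k) ≠ 0 → ∀ f : List M → k, CocL m f →
      ∃ c : k, ExL m fun l => f l - c * (z (l.map X.φ) : k) := by
  classical
  have hmemE : ∀ l, X.Adm l → l.length = m → X.E l ∈ Sz fun w => X.Adm w ∧ w.length = m :=
    fun l hl h => by
      have hne : l ≠ [] := fun e => by rw [e] at h; simp at h; omega
      have := X.memE l hl hne (by omega)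
      rwa [h] at this
  let P : Matrix (Ix X.Adm m) (Ix X.Adm (m - 1) ⊕ Unit) ℤ :=
    fun i j => Sum.elim (fun j => mat bdl m (m - 1) i j) (fun _ => ext z (X.E i.1)) j
  have hP : ∀ (k : Type) [Field k] (a : Ix X.Adm (m - 1) ⊕ Unit → k) (i : Ix X.Adm m),
      act k P a i = act k (mat bdl m (m - 1)) (fun j => a (Sum.inl j)) i +
        a (Sum.inr ()) * evz (fun l => (z l : k)) (X.E i.1) := by
    intro k _ a i
    rw [evz_cast]
    have e : act k P a i = ∑ j, ((P i j : ℤ) : k) * a j := rfl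
    have e' : act k (mat bdl m (m - 1) : Matrix (Ix X.Adm m) (Ix X.Adm (m - 1)) ℤ)
        (fun j => a (Sum.inl j)) i = ∑ j, ((mat bdl m (m - 1) i j : ℤ) : k) * a (Sum.inl j) := rfl
    rw [e, e', Fintype.sum_sum_type, Fintype.sum_unique (fun j : Unit => _)]
    simp only [P, Sum.elim_inl, Sum.elim_inr]
    change _ + ((ext z (X.E i.1) : ℤ) : k) * a (Sum.inr ()) = _
    ring
  have hQ : ∀ l, X.Adm l → l.length = m + 1 → bdl l ∈ Sz fun w => X.Adm w ∧ w.length = m :=
    fun l hl h => X.bdl_mem l hl h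
  have hsub : ∀ (k : Type) [Field k] (b : List M → k) (c : k),
      (∀ l, X.Adm l → l.length = m + 1 → Sl.dl b l = 0) →
      ∀ l, X.Adm l → l.length = m + 1 → Sl.dl (fun l => b l - c * (z l : k)) l = 0 := by
    intro k _ b c hb l hl hlm
    have e : (fun l => b l - c * (z l : k)) = fun l => b l + (-c) * (z l : k) := by
      funext l; ring
    rw [e, dl_add, dl_smul, hb l hl hlm, CocZ.dl_eq X hz k l hl hlm]
    ring
  obtain ⟨N₀, hN₀, H⟩ := la1 _ _ (Ix X.Adm (m + 1)) P (mat bdl (m + 1) m) (mat X.E m m)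
    (fun b hb => by
      have hb' : ∀ l, X.Adm l → l.length = m + 1 → Sl.dl (xt b) l = 0 := fun l hl hlm => by
        have := congrFun hb ⟨l, hl, hlm⟩
        rw [act_mat hQ (xt b) b (fun j => (xt_of b j.2).symm), ← dl_eq] at this
        exact this
      obtain ⟨c, hc⟩ := h (fun l => xt b (l.map X.φ)) ⟨X.s, X.s_pos, fun l hl hs => by
        rw [dl_map]
        exact hb' _ (X.adm l hs) (by rw [List.length_map, hl])⟩
      obtain ⟨a, ha⟩ := (X.ex_iff hm hN (hsub ℚ (xt b) c hb')).1 hc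
      refine ⟨Sum.elim a fun _ => c, funext fun i => ?_⟩
      rw [act_mat hmemE (xt b) b (fun j => (xt_of b j.2).symm), hP]
      have h2 := ha i
      have e : (fun l => xt b l - c * (z l : ℚ)) = fun l => xt b l + (-c) * (z l : ℚ) := by
        funext l; ring
      rw [e, evz_add, evz_smul] at h2
      simp only [Sum.elim_inl, Sum.elim_inr]
      linear_combination h2)
  refine ⟨N₀, hN₀, fun k _ hk f hf => ?_⟩
  obtain ⟨ε, hε, hf⟩ := hf
  obtain ⟨b, hb, η, hη, g, hg⟩ := X.repr k m hm hN f ε hε hf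
  obtain ⟨a, ha⟩ := H k hk (fun i => b i.1) (funext fun i => by
    rw [act_mat hQ b _ (fun _ => rfl), ← dl_eq]
    exact hb i.1 i.2.1 i.2.2)
  refine ⟨a (Sum.inr ()), ?_⟩
  have h1 : ExL m fun l => (fun l => b l - a (Sum.inr ()) * (z l : k)) (l.map X.φ) := by
    refine (X.ex_iff hm hN (hsub k b _ hb)).2 ⟨fun j => a (Sum.inl j), fun i => ?_⟩
    have h2 := congrFun ha i
    rw [act_mat hmemE b _ (fun _ => rfl), hP] at h2
    have e : (fun l => b l - a (Sum.inr ()) * (z l : k)) =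
        fun l => b l + (-a (Sum.inr ())) * (z l : k) := by
      funext l; ring
    rw [e, evz_add, evz_smul, h2]
    ring
  have h3 : ExL m fun l => f l - b (l.map X.φ) := ⟨η, hη, g, hg⟩
  refine (h3.add h1).congr one_pos fun l _ _ => ?_
  ring

/-- **Transfer of non-exactness.** -/
theorem ne_of (la3 : LA3) {m : ℕ} (hm : 1 ≤ m) (hN : m + 1 ≤ N) {z : List M → ℤ}
    (hz : X.CocZ m z) (h : ¬ ExL m fun l => (z (l.map X.φ) : ℚ)) :
    ∃ N₀ : ℕ, N₀ ≠ 0 ∧ ∀ (k : Type) [Field k], (N₀ : k) ≠ 0 →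
      ¬ ExL m fun l => (z (l.map X.φ) : k) := by
  classical
  obtain ⟨N₀, hN₀, H⟩ := la3 _ _ (mat bdl m (m - 1) : Matrix (Ix X.Adm m) (Ix X.Adm (m - 1)) ℤ)
    (fun i => ext z (X.E i.1)) (fun ⟨a, ha⟩ => h ((X.ex_iff (b := fun l => (z l : ℚ)) hm hN
      (CocZ.dl_eq X hz ℚ)).2 ⟨a, fun i => by
        rw [evz_cast]
        exact congrFun ha i⟩))
  refine ⟨N₀, hN₀, fun k _ hk hex => H k hk ?_⟩
  obtain ⟨a, ha⟩ := (X.ex_iff (b := fun l => (z l : k)) hm hN (CocZ.dl_eq X hz k)).1 hex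
  exact ⟨a, funext fun i => by rw [← ha i, evz_cast]⟩

end FMod

end Vale.Agent.P216.D773
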